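import Vale.Agent.Lib.P050.Step

set_option linter.unusedSectionVars false
set_option linter.unusedVariables false

namespace Vale.Agent.Lib.P050

noncomputable section

open Finset Function
open scoped BigOperators Classical

variable {V Ω : Type*} [Fintype V] [DecidableEq V] [Fintype Ω] [DecidableEq Ω] [Nonempty Ω]

/-- The standing hypotheses. -/
structure Hyp (f : Sym2 Ω → ℝ) (E : Finset (Sym2 V)) (Δ : ℕ) (col : V → Bool) (ε : ℝ) : Prop where
  pos : 1 ≤ Δ
  hε : 0 < ε
  hε1 : ε < 1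
  small : ∀ p, |f p| ≤ ε
  mean : 𝔼 a : Ω, 𝔼 b : Ω, f s(a, b) = 0
  nodiag : ∀ e ∈ E, ¬ e.IsDiag
  deg : ∀ v, (E.filter (fun h => v ∈ h)).card ≤ Δ
  proper : ∀ a b, s(a, b) ∈ E → col a ≠ col b

lemma tt_single (f : Sym2 Ω → ℝ) (hmean : 𝔼 a : Ω, 𝔼 b : Ω, f s(a, b) = 0) (e : Sym2 V)
    (he : ¬ e.IsDiag) : tt f ({e} : Finset (Sym2 V)) = 0 := by
  induction e using Sym2.ind with
  | _ u v =>
    have huv : u ≠ v := fun h => he (by simp [h])
    unfold tt
    simp only [Finset.prod_singleton]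
    have h1 := leaf_int (Ω := Ω) f u v huv (fun _ => 1) (fun _ _ => rfl)
    simp only [one_mul] at h1
    rw [h1, expect_coord (fun a => dd f a) v]
    have : 𝔼 b : Ω, dd f b = 𝔼 a : Ω, 𝔼 b : Ω, f s(a, b) := by
      unfold dd
      rw [expect_comm]
    rw [this, hmean]

lemma touch_pair {e₁ e₂ : Sym2 V} (h₁ : ¬ e₁.IsDiag) (h₂ : ¬ e₂.IsDiag) (hne : e₁ ≠ e₂)
    (hT : Touches e₂ {e₁}) :
    ∃ l₁ l₂ u : V, e₁ = s(l₁, u) ∧ e₂ = s(l₂, u) ∧ l₁ ≠ u ∧ l₂ ≠ u ∧ l₁ ≠ l₂ := by
  obtain ⟨v, hv, h', hh', hvh⟩ := hT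
  rw [Finset.mem_singleton] at hh'
  subst hh'
  obtain ⟨a, ha⟩ := hvh
  obtain ⟨b, hb⟩ := hv
  subst ha hb
  refine ⟨a, b, v, Sym2.eq_swap, Sym2.eq_swap, ?_, ?_, ?_⟩
  · intro h; exact h₁ (by simp [h])
  · intro h; exact h₂ (by simp [h])
  · intro h; exact hne (by rw [h])

/-- A two element connected set is a cherry. -/
lemma card_two_cherry {μ : Finset (Sym2 V)} (hno : ∀ e ∈ μ, ¬ e.IsDiag) (hconn : Conn μ)
    (h2 : μ.card = 2) :
    ∃ l₁ l₂ u : V, μ = {s(l₁, u), s(l₂, u)} ∧ l₁ ≠ u ∧ l₂ ≠ u ∧ l₁ ≠ l₂ := by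
  obtain ⟨e₁, e₂, hne, rfl⟩ := Finset.card_eq_two.1 h2
  have hY : ({e₁} : Finset (Sym2 V)) ≠ {e₁, e₂} := by
    intro h
    have : e₂ ∈ ({e₁} : Finset (Sym2 V)) := by rw [h]; simp
    rw [Finset.mem_singleton] at this
    exact hne this.symm
  obtain ⟨g, hg, hT⟩ := hconn {e₁} (by simp) (by simp) hY
  have hgeq : g = e₂ := by
    simp only [Finset.mem_sdiff, Finset.mem_insert, Finset.mem_singleton] at hg
    tauto
  subst hgeq
  obtain ⟨l₁, l₂, u, h3, h4, h5, h6, h7⟩ := touch_pair (hno _ (by simp)) (hno _ (by simp)) hne hT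
  exact ⟨l₁, l₂, u, by rw [h3, h4], h5, h6, h7⟩

lemma tt_card_two (f : Sym2 Ω → ℝ) {μ : Finset (Sym2 V)} (hno : ∀ e ∈ μ, ¬ e.IsDiag)
    (hconn : Conn μ) (h2 : μ.card = 2) : tt f μ = w2 f := by
  obtain ⟨l₁, l₂, u, rfl, h5, h6, h7⟩ := card_two_cherry hno hconn h2
  exact cherry_eq f l₁ l₂ u h5 h6 h7

lemma vset_card_two {μ : Finset (Sym2 V)} (hno : ∀ e ∈ μ, ¬ e.IsDiag) (hconn : Conn μ)
    (h2 : μ.card = 2) : (vset μ).card ≤ 3 := by
  obtain ⟨l₁, l₂, u, rfl, h5, h6, h7⟩ := card_two_cherry hno hconn h2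
  have : vset ({s(l₁, u), s(l₂, u)} : Finset (Sym2 V)) ⊆ {l₁, l₂, u} := by
    intro v hv
    obtain ⟨h', hh', hvh⟩ := mem_vset.1 hv
    simp only [Finset.mem_insert, Finset.mem_singleton] at hh' ⊢
    rcases hh' with rfl | rfl <;> simp only [Sym2.mem_iff] at hvh <;> tauto
  exact (Finset.card_le_card this).trans Finset.card_le_three

lemma tt_cycEdges (f : Sym2 Ω → ℝ) {n : ℕ} {c : ℕ → V} (h3 : 3 ≤ n) (hcl : c n = c 0)
    (hinj : ∀ i < n, ∀ j < n, c i = c j → i = j) :
    tt f (cycEdges n c) = trc (normA f) (List.replicate n (1 : Ω → ℝ)) := by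
  unfold tt
  have h1 := cyc_int (V := V) f (fun _ _ => 1) c n (by omega) hcl hinj
  simp only [one_mul] at h1
  have h2 : (List.range n).map (fun (_ : ℕ) (_ : Ω) => (1 : ℝ)) = List.replicate n (1 : Ω → ℝ) := by
    rw [List.eq_replicate_iff]
    constructor
    · simp
    · intro b hb
      simp only [List.mem_map] at hb
      obtain ⟨_, _, rfl⟩ := hb
      rfl
  rw [h2] at h1
  rw [← h1]
  refine Finset.expect_congr rfl ?_
  intro x _
  rw [prod_cycEdges h3 hcl hinj]
  rfl

lemma trc_nonneg (f : Sym2 Ω → ℝ) (n : ℕ) (hn : Even n) (hn0 : 0 < n) :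
    0 ≤ trc (normA f) (List.replicate n (1 : Ω → ℝ)) := by
  obtain ⟨l, rfl⟩ := hn
  have e : l + l = 2 * l := by ring
  rw [e]
  have := twist (normA f) (normA_symm f) l (by omega) (List.replicate (2 * l) (1 : Ω → ℝ))
    (by simp) (good_one _)
  exact (abs_nonneg _).trans this

lemma vset_cycEdges_card {n : ℕ} {c : ℕ → V} (h0 : 0 < n) (hcl : c n = c 0) :
    (vset (cycEdges n c)).card ≤ n := by
  have : vset (cycEdges n c) ⊆ cycVerts n c := by
    intro v hv
    obtain ⟨h', hh', hvh⟩ := mem_vset.1 hv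
    exact mem_cycVerts_of_mem_cycEdges h0 hcl hh' hvh
  calc _ ≤ _ := Finset.card_le_card this
    _ ≤ (range n).card := Finset.card_image_le
    _ = n := Finset.card_range n

lemma conn_cycEdges {γ : Finset (Sym2 V)} {n : ℕ} {c : ℕ → V} (h : IsCyc γ n c) :
    Conn (cycEdges n c) := by
  intro Y hY hne hYC
  by_contra hcon
  have hclosed : ∀ i < n, s(c i, c (i + 1)) ∈ Y → ∀ i' < n, c i' = c (i + 1) →
      s(c i', c (i' + 1)) ∈ Y := by
    intro i hi hiY i' hi' heq
    by_contra hnot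
    apply hcon
    refine ⟨s(c i', c (i' + 1)), ?_, c i', by simp, _, hiY, by rw [heq]; simp⟩
    simp only [Finset.mem_sdiff]
    refine ⟨?_, hnot⟩
    simp only [cycEdges, mem_image, mem_range]
    exact ⟨i', hi', rfl⟩
  obtain ⟨e, he⟩ := hne
  have heC := hY he
  simp only [cycEdges, mem_image, mem_range] at heC
  obtain ⟨i₀, hi₀, rfl⟩ := heC
  have hn := h.three_le
  -- all edges lie in `Y`
  have hall : ∀ t, s(c ((i₀ + t) % n), c ((i₀ + t) % n + 1)) ∈ Y := by
    intro t
    induction t with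
    | zero =>
      rw [add_zero, Nat.mod_eq_of_lt hi₀]
      exact he
    | succ t ih =>
      have ha : (i₀ + t) % n < n := Nat.mod_lt _ (by omega)
      have hb : (i₀ + (t + 1)) % n < n := Nat.mod_lt _ (by omega)
      apply hclosed _ ha ih _ hb
      have e1 : (i₀ + (t + 1)) % n = ((i₀ + t) % n + 1) % n := by
        rw [Nat.mod_add_mod]; rfl
      rw [e1]
      by_cases h3 : (i₀ + t) % n + 1 = n
      · rw [h3, Nat.mod_self, h.closed]
      · rw [Nat.mod_eq_of_lt (by omega)]
  apply hYC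
  apply Finset.Subset.antisymm hY
  intro e' he'
  simp only [cycEdges, mem_image, mem_range] at he'
  obtain ⟨i, hi, rfl⟩ := he'
  have := hall (i + n - i₀)
  have e2 : i₀ + (i + n - i₀) = i + n := by omega
  rw [e2, Nat.add_mod_right, Nat.mod_eq_of_lt hi] at this
  exact this

/-- Charge to a cherry. -/
def X2 (κ A ε w : ℝ) (γ : Finset (Sym2 V)) : ℝ := κ ^ (γ.card + 1) * (A * ε) ^ (γ.card - 2) * w

/-- Charge to a cycle. -/
def XC (κ A ε : ℝ) (f : Sym2 Ω → ℝ) (γ C : Finset (Sym2 V)) : ℝ :=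
  κ ^ (γ.card + 1) * ((A⁻¹) ^ (γ.card - 2) * ε ^ (γ \ C).card +
    (if C.card ≤ 2 * (γ \ C).card then ε ^ (γ \ C).card else 0)) * tt f C

/-- Cherries. -/
def M2 (E : Finset (Sym2 V)) : Finset (Finset (Sym2 V)) := (polys E).filter (fun γ => γ.card = 2)

/-- Cycles. -/
def MC (E : Finset (Sym2 V)) : Finset (Finset (Sym2 V)) := (polys E).filter isCycSet

/-- Other polymers. -/
def NM (E : Finset (Sym2 V)) : Finset (Finset (Sym2 V)) := (polys E).filter (fun γ => ¬ isMain γ)

lemma exists_cherry {E γ : Finset (Sym2 V)} (hγ : γ ∈ polys E) (h2 : 2 ≤ γ.card) :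
    ∃ μ ∈ M2 E, μ ⊆ γ := by
  obtain ⟨h1, hne, hconn⟩ := mem_polys.1 hγ
  obtain ⟨e, he⟩ := hne
  have hY : ({e} : Finset (Sym2 V)) ≠ γ := by
    intro h
    rw [← h] at h2
    simp at h2
  obtain ⟨g, hg, hT⟩ := hconn {e} (by simpa using he) (by simp) hY
  simp only [Finset.mem_sdiff, Finset.mem_singleton] at hg
  have hne' : e ≠ g := fun h => hg.2 h.symm
  refine ⟨{e, g}, ?_, ?_⟩
  · simp only [M2, Finset.mem_filter, mem_polys]
    refine ⟨⟨?_, by simp, ?_⟩, Finset.card_pair hne'⟩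
    · intro a ha
      simp only [Finset.mem_insert, Finset.mem_singleton] at ha
      rcases ha with rfl | rfl
      · exact h1 he
      · exact h1 hg.1
    · -- connectivity of a pair
      intro Y hYs hYne hYeq
      by_cases heY : e ∈ Y
      · have hgY : g ∉ Y := by
          intro hgY
          apply hYeq
          apply Finset.Subset.antisymm hYs
          intro a ha
          simp only [Finset.mem_insert, Finset.mem_singleton] at ha
          rcases ha with rfl | rfl
          · exact heY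
          · exact hgY
        refine ⟨g, by simp [hgY], ?_⟩
        exact hT.mono (by simpa using heY)
      · obtain ⟨y, hy⟩ := hYne
        have hyg : y = g := by
          have := hYs hy
          simp only [Finset.mem_insert, Finset.mem_singleton] at this
          rcases this with rfl | rfl
          · exact absurd hy heY
          · rfl
        subst hyg
        refine ⟨e, by simp [heY], ?_⟩
        obtain ⟨v, hv, h', hh', hvh⟩ := hT
        rw [Finset.mem_singleton] at hh'
        subst hh'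
        exact ⟨v, hvh, y, hy, hv⟩
  · intro a ha
    simp only [Finset.mem_insert, Finset.mem_singleton] at ha
    rcases ha with rfl | rfl
    · exact he
    · exact hg.1

lemma leaf_not_on_cycle {γ : Finset (Sym2 V)} {n : ℕ} {c : ℕ → V} (hc : IsCyc γ n c) {l u : V}
    (hleaf : ∀ e ∈ γ, l ∈ e → e = s(l, u)) : ∀ e ∈ cycEdges n c, l ∉ e := by
  intro e he hle
  have hn := hc.three_le
  have hlS := mem_cycVerts_of_mem_cycEdges (by omega) hc.closed he hle
  simp only [cycVerts, mem_image, mem_range] at hlS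
  obtain ⟨i, hi, rfl⟩ := hlS
  have hinj := cyc_edge_inj hc.three_le hc.closed hc.inj
  by_cases h0 : i = 0
  · subst h0
    have h1 := hleaf _ (hc.mem 0 (by omega)) (by simp)
    have h2 := hleaf _ (hc.mem (n - 1) (by omega)) (by
      have : n - 1 + 1 = n := by omega
      rw [this, hc.closed]; simp)
    have := hinj (by simp; omega : (0 : ℕ) ∈ (range n : Set ℕ))
      (by simp; omega : (n - 1) ∈ (range n : Set ℕ)) (h1.trans h2.symm)
    omega
  · have h1 := hleaf _ (hc.mem i hi) (by simp)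
    have h2 := hleaf _ (hc.mem (i - 1) (by omega)) (by
      have : i - 1 + 1 = i := by omega
      rw [this]; simp)
    have := hinj (by simp; omega : i ∈ (range n : Set ℕ))
      (by simp; omega : (i - 1) ∈ (range n : Set ℕ)) (h1.trans h2.symm)
    omega

lemma induced_aux {γ : Finset (Sym2 V)} {n : ℕ} {c : ℕ → V} (hmin : MinCyc γ n c)
    {e : Sym2 V} (he : e ∈ γ) (heC : e ∉ cycEdges n c) :
    ∀ i < n, ∀ j < n, c i ∈ e → c j ∈ e → i = j := by
  intro i hi j hj h1 h2
  by_contra hij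
  have hne : c i ≠ c j := fun h => hij (hmin.1.inj i hi j hj h)
  have heq : e = s(c i, c j) := (Sym2.mem_and_mem_iff hne).1 ⟨h1, h2⟩
  subst heq
  exact heC (hmin.induced i j hi hj hij he)

lemma abs_le_add_of_sq_le {t a b : ℝ} (ha : 0 ≤ a) (hb : 0 ≤ b) (h : t ^ 2 ≤ a * b) :
    |t| ≤ a + b := by
  apply abs_le_of_sq_le_sq _ (by positivity)
  nlinarith [mul_nonneg ha hb, sq_nonneg (a - b)]

lemma nm_bound {f : Sym2 Ω → ℝ} {E : Finset (Sym2 V)} {Δ : ℕ} {col : V → Bool} {ε : ℝ}
    (h : Hyp f E Δ col ε) (κ A : ℝ) (hκ : 1 ≤ κ) (hA : 1 ≤ A)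
    {γ : Finset (Sym2 V)} (hγ : γ ∈ polys E) (hnm : ¬ isMain γ) :
    |tt f γ| * κ ^ (vset γ).card ≤
      ∑ μ ∈ M2 E, (if μ ⊆ γ then X2 κ A ε (w2 f) γ else 0) +
      ∑ C ∈ MC E, (if C ⊆ γ then XC κ A ε f γ C else 0) := by
  obtain ⟨hγE, hne, hconn⟩ := mem_polys.1 hγ
  have hε0 : 0 ≤ ε := h.hε.le
  have hκ0 : 0 < κ := by linarith
  have hA0 : 0 < A := by linarith
  have hw := w2_nonneg f
  have hno : ∀ e ∈ γ, ¬ e.IsDiag := fun e he => h.nodiag e (hγE he)
  have hXCnn : ∀ C ∈ MC E, 0 ≤ (if C ⊆ γ then XC κ A ε f γ C else 0) := by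
    intro C hC
    split_ifs with hsub
    · obtain ⟨hCp, n, c, hc, rfl⟩ := Finset.mem_filter.1 hC
      obtain ⟨hCE, _, _⟩ := mem_polys.1 hCp
      have hev : Even n := hc.even col (fun a b hab => h.proper a b (hCE hab))
      have ht : 0 ≤ tt f (cycEdges n c) := by
        rw [tt_cycEdges f hc.three_le hc.closed hc.inj]
        exact trc_nonneg f n hev (by have := hc.three_le; omega)
      unfold XC
      have h1 : 0 ≤ (if (cycEdges n c).card ≤ 2 * (γ \ cycEdges n c).card
          then ε ^ (γ \ cycEdges n c).card else 0) := by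
        split_ifs <;> positivity
      positivity
    · exact le_rfl
  have hX2nn : ∀ μ ∈ M2 E, 0 ≤ (if μ ⊆ γ then X2 κ A ε (w2 f) γ else 0) := by
    intro μ _
    split_ifs with hsub
    · unfold X2; positivity
    · exact le_rfl
  have hS1 : 0 ≤ ∑ μ ∈ M2 E, (if μ ⊆ γ then X2 κ A ε (w2 f) γ else 0) :=
    Finset.sum_nonneg hX2nn
  have hS2 : 0 ≤ ∑ C ∈ MC E, (if C ⊆ γ then XC κ A ε f γ C else 0) :=
    Finset.sum_nonneg hXCnn
  by_cases hcard1 : γ.card = 1
  · obtain ⟨e, rfl⟩ := Finset.card_eq_one.1 hcard1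
    rw [tt_single f h.mean e (hno e (by simp))]
    simp only [abs_zero, zero_mul]
    linarith
  have hcard2 : 2 ≤ γ.card := by
    have := Finset.card_pos.2 hne
    omega
  have hκv : κ ^ (vset γ).card ≤ κ ^ (γ.card + 1) :=
    pow_le_pow_right₀ hκ (card_vset_le hconn hne)
  -- a cherry term
  have hcherry : X2 κ A ε (w2 f) γ ≤ ∑ μ ∈ M2 E, (if μ ⊆ γ then X2 κ A ε (w2 f) γ else 0) := by
    obtain ⟨μ, hμ, hsub⟩ := exists_cherry hγ hcard2
    have := Finset.single_le_sum hX2nn hμ
    simpa [hsub] using this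
  have hpow : ε ^ (γ.card - 2) ≤ (A * ε) ^ (γ.card - 2) := by
    apply pow_le_pow_left₀ hε0
    nlinarith
  rcases cycle_or_leaves γ hno hconn hcard2 with hcyc | ⟨l₁, u₁, l₂, u₂, m₁, m₂, n₁, n₂, hd, f₁, f₂⟩
  · -- a cycle exists
    obtain ⟨n, c, hmin⟩ := exists_minCyc hcyc
    have hc := hmin.1
    have hn3 := hc.three_le
    set C := cycEdges n c with hCdef
    have hCγ : C ⊆ γ := hc.edges_subset
    have hCcyc : IsCyc C n c :=
      ⟨hc.three_le, hc.closed, hc.inj, fun i hi => by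
        simp only [hCdef, cycEdges, mem_image, mem_range]; exact ⟨i, hi, rfl⟩⟩
    have hCne : C.Nonempty := ⟨s(c 0, c (0 + 1)), by
      simp only [hCdef, cycEdges, mem_image, mem_range]; exact ⟨0, by omega, rfl⟩⟩
    have hCMC : C ∈ MC E := by
      simp only [MC, Finset.mem_filter, mem_polys]
      exact ⟨⟨hCγ.trans hγE, hCne, conn_cycEdges hc⟩, n, c, hCcyc, rfl⟩
    have hev : Even n := hc.even col (fun a b hab => h.proper a b (hγE hab))
    obtain ⟨l, hl⟩ := hev
    have hnl : n = 2 * l := by omega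
    have hl0 : 0 < l := by omega
    have hT0 : 0 ≤ tt f C := by
      rw [tt_cycEdges f hc.three_le hc.closed hc.inj]
      exact trc_nonneg f n ⟨l, hl⟩ (by omega)
    have hTeq : tt f C = trc (normA f) (List.replicate n (1 : Ω → ℝ)) :=
      tt_cycEdges f hc.three_le hc.closed hc.inj
    have hcycterm : XC κ A ε f γ C ≤ ∑ C ∈ MC E, (if C ⊆ γ then XC κ A ε f γ C else 0) := by
      have := Finset.single_le_sum hXCnn hCMC
      simpa [hCγ] using this
    have hCcard : C.card = n := card_cycEdges hc.three_le hc.closed hc.inj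
    by_cases hleaf : ∃ l₀ u₀, s(l₀, u₀) ∈ γ ∧ ∀ e ∈ γ, l₀ ∈ e → e = s(l₀, u₀)
    · -- one leaf
      obtain ⟨l₀, u₀, hm, hlf⟩ := hleaf
      have hlC := leaf_not_on_cycle hc hlf
      have hlu : l₀ ≠ u₀ := fun h' => hno _ hm (by simp [h'])
      have hnotC : s(l₀, u₀) ∉ C := fun h' => hlC _ h' (by simp)
      set F'' := (γ \ C).erase s(l₀, u₀) with hF''
      have hF''ind : ∀ e ∈ F'', ∀ i < n, ∀ j < n, c i ∈ e → c j ∈ e → i = j := by
        intro e he
        simp only [hF'', Finset.mem_erase, Finset.mem_sdiff] at he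
        exact induced_aux hmin he.2.1 he.2.2
      have hdisj : Disjoint C F'' := by
        rw [Finset.disjoint_right]
        intro e he heC
        simp only [hF'', Finset.mem_erase, Finset.mem_sdiff] at he
        exact he.2.2 heC
      have hlall : ∀ e ∈ C ∪ F'', l₀ ∉ e := by
        intro e he hle
        rcases Finset.mem_union.1 he with he | he
        · exact hlC e he hle
        · simp only [hF'', Finset.mem_erase, Finset.mem_sdiff] at he
          exact he.1 (hlf e he.2.1 hle)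
      have hnot : s(l₀, u₀) ∉ C ∪ F'' := fun h' => hlall _ h' (by simp)
      have hγeq : insert s(l₀, u₀) (C ∪ F'') = γ := by
        ext e
        simp only [hF'', Finset.mem_insert, Finset.mem_union, Finset.mem_erase, Finset.mem_sdiff]
        constructor
        · rintro (rfl | he | he)
          · exact hm
          · exact hCγ he
          · exact he.2.1
        · intro he
          by_cases h1 : e = s(l₀, u₀)
          · exact Or.inl h1
          · by_cases h2 : e ∈ C
            · exact Or.inr (Or.inl h2)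
            · exact Or.inr (Or.inr ⟨h1, he, h2⟩)
      have hb := leaf_cycle f ε h.hε h.small n l hnl hl0 c hc.three_le hc.closed hc.inj F'' hF''ind
        hdisj l₀ u₀ hlu hlall hnot
      rw [hγeq, ← hTeq] at hb
      set m := F''.card with hm'
      have hγcard : γ.card = n + m + 1 := by
        rw [← hγeq, Finset.card_insert_of_notMem hnot, Finset.card_union_of_disjoint hdisj, hCcard]
      have hjcard : (γ \ C).card = m + 1 := by
        have h1 : (γ \ C).erase s(l₀, u₀) = F'' := rfl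
        have h2 : s(l₀, u₀) ∈ γ \ C := by simp [hm, hnotC]
        rw [← Finset.card_erase_add_one h2, h1]
      set a := (A * ε) ^ (γ.card - 2) * w2 f with ha
      set b := (A⁻¹) ^ (γ.card - 2) * ε ^ (γ \ C).card * tt f C with hb'
      have ha0 : 0 ≤ a := by positivity
      have hb0 : 0 ≤ b := by positivity
      have hab : tt f γ ^ 2 ≤ a * b := by
        refine hb.trans (le_of_eq ?_)
        rw [ha, hb', mul_pow, hjcard]
        have e1 : γ.card - 2 = n + m - 1 := by omega
        have e2 : n + 2 * m = (n + m - 1) + (m + 1) := by omega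
        rw [e1, e2, pow_add]
        have e3 : A ^ (n + m - 1) * (A⁻¹) ^ (n + m - 1) = 1 := by
          rw [← mul_pow, mul_inv_cancel₀ hA0.ne', one_pow]
        calc w2 f * (ε ^ (n + m - 1) * ε ^ (m + 1) * tt f C)
            = (A ^ (n + m - 1) * (A⁻¹) ^ (n + m - 1)) *
                (w2 f * (ε ^ (n + m - 1) * ε ^ (m + 1) * tt f C)) := by rw [e3, one_mul]
          _ = _ := by ring
      have hbound := abs_le_add_of_sq_le ha0 hb0 hab
      have h1 : κ ^ (γ.card + 1) * b ≤ XC κ A ε f γ C := by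
        unfold XC
        rw [hb']
        have h2 : 0 ≤ (if C.card ≤ 2 * (γ \ C).card then ε ^ (γ \ C).card else 0) := by
          split_ifs <;> positivity
        have h3 : (A⁻¹) ^ (γ.card - 2) * ε ^ (γ \ C).card ≤
            (A⁻¹) ^ (γ.card - 2) * ε ^ (γ \ C).card +
              (if C.card ≤ 2 * (γ \ C).card then ε ^ (γ \ C).card else 0) := by linarith
        have h4 := mul_le_mul_of_nonneg_left h3 (by positivity : 0 ≤ κ ^ (γ.card + 1))
        have h5 := mul_le_mul_of_nonneg_right h4 hT0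
        calc κ ^ (γ.card + 1) * ((A⁻¹) ^ (γ.card - 2) * ε ^ (γ \ C).card * tt f C)
            = κ ^ (γ.card + 1) * ((A⁻¹) ^ (γ.card - 2) * ε ^ (γ \ C).card) * tt f C := by ring
          _ ≤ _ := h5
      have h2 : κ ^ (γ.card + 1) * a = X2 κ A ε (w2 f) γ := by
        unfold X2; rw [ha]; ring
      calc |tt f γ| * κ ^ (vset γ).card ≤ (a + b) * κ ^ (γ.card + 1) :=
            mul_le_mul hbound hκv (by positivity) (by positivity)
        _ = κ ^ (γ.card + 1) * a + κ ^ (γ.card + 1) * b := by ring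
        _ ≤ _ := by
            rw [h2]
            exact add_le_add hcherry (h1.trans hcycterm)
    · -- no leaf
      have hnoleaf : ∀ l₀ u₀, s(l₀, u₀) ∈ γ → ∃ e ∈ γ, l₀ ∈ e ∧ e ≠ s(l₀, u₀) := by
        intro l₀ u₀ hm
        by_contra hcon
        apply hleaf
        refine ⟨l₀, u₀, hm, ?_⟩
        intro e he hle
        by_contra hne'
        exact hcon ⟨e, he, hle, hne'⟩
      have hCne' : C ≠ γ := by
        intro h1
        apply hnm
        exact Or.inr ⟨n, c, by rw [← h1]; exact hCcyc, h1⟩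
      have hear := ear_bound hno hconn hmin hnoleaf hCne'
      have hF'ind : ∀ e ∈ γ \ C, ∀ i < n, ∀ j < n, c i ∈ e → c j ∈ e → i = j := by
        intro e he
        simp only [Finset.mem_sdiff] at he
        exact induced_aux hmin he.1 he.2
      have hb := cycle_bound f ε h.hε h.small n l hnl hl0 c hc.three_le hc.closed hc.inj (γ \ C)
        hF'ind Finset.disjoint_sdiff (fun _ => 1) (by simp) (c 0)
      have hγeq : C ∪ (γ \ C) = γ := Finset.union_sdiff_of_subset hCγ
      simp only [one_mul] at hb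
      rw [hγeq, ← hTeq] at hb
      have hb2 : |tt f γ| ≤ ε ^ (γ \ C).card * tt f C := hb
      have h1 : κ ^ (γ.card + 1) * (ε ^ (γ \ C).card * tt f C) ≤ XC κ A ε f γ C := by
        unfold XC
        rw [hCcard, if_pos hear]
        have h3 : ε ^ (γ \ C).card ≤ (A⁻¹) ^ (γ.card - 2) * ε ^ (γ \ C).card +
            ε ^ (γ \ C).card := by
          have : 0 ≤ (A⁻¹) ^ (γ.card - 2) * ε ^ (γ \ C).card := by positivity
          linarith
        have h4 := mul_le_mul_of_nonneg_left h3 (by positivity : 0 ≤ κ ^ (γ.card + 1))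
        have h5 := mul_le_mul_of_nonneg_right h4 hT0
        calc κ ^ (γ.card + 1) * (ε ^ (γ \ C).card * tt f C)
            = κ ^ (γ.card + 1) * ε ^ (γ \ C).card * tt f C := by ring
          _ ≤ _ := h5
      calc |tt f γ| * κ ^ (vset γ).card ≤ (ε ^ (γ \ C).card * tt f C) * κ ^ (γ.card + 1) :=
            mul_le_mul hb2 hκv (by positivity) (by positivity)
        _ = κ ^ (γ.card + 1) * (ε ^ (γ \ C).card * tt f C) := by ring
        _ ≤ XC κ A ε f γ C := h1
        _ ≤ _ := hcycterm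
        _ ≤ _ := by linarith
  · -- two leaves
    have hb := two_leaves f ε hε0 h.small γ l₁ u₁ l₂ u₂ m₁ m₂ n₁ n₂ hd f₁ f₂
    have h1 : |tt f γ| ≤ (A * ε) ^ (γ.card - 2) * w2 f :=
      hb.trans (mul_le_mul_of_nonneg_right hpow hw)
    calc |tt f γ| * κ ^ (vset γ).card ≤ ((A * ε) ^ (γ.card - 2) * w2 f) * κ ^ (γ.card + 1) :=
          mul_le_mul h1 hκv (by positivity) (by positivity)
      _ = X2 κ A ε (w2 f) γ := by unfold X2; ring
      _ ≤ _ := hcherry
      _ ≤ _ := by linarith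

end

end Vale.Agent.Lib.P050
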