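import Vale.Agent.Lib.P050.Ex

set_option linter.unusedSectionVars false

namespace Vale.Agent.Lib.P050

noncomputable section

open Finset Function
open scoped BigOperators

variable {V Ω : Type*} [Fintype V] [DecidableEq V] [Fintype Ω] [DecidableEq Ω] [Nonempty Ω]

/-- The normalised matrix of a symmetric function. -/
def normA (f : Sym2 Ω → ℝ) : Matrix Ω Ω ℝ :=
  Matrix.of fun a b => f s(a, b) / (Fintype.card Ω : ℝ)

lemma normA_symm (f : Sym2 Ω → ℝ) : (normA f).transpose = normA f := by
  ext a b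
  simp [normA, Sym2.eq_swap]

lemma card_ne_zero' : (Fintype.card Ω : ℝ) ≠ 0 := by
  exact_mod_cast Fintype.card_ne_zero

/-- Matrix along an initial segment. -/
def Pk (f : Sym2 Ω → ℝ) (D : ℕ → Ω → ℝ) (k : ℕ) : Matrix Ω Ω ℝ :=
  prd (normA f) ((List.range k).map D)

lemma Pk_succ (f : Sym2 Ω → ℝ) (D : ℕ → Ω → ℝ) (k : ℕ) (a b : Ω) :
    Pk f D (k + 1) a b = 𝔼 t, Pk f D k a t * (D k t * f s(t, b)) := by
  have h : Pk f D (k + 1) = Pk f D k * (Matrix.diagonal (D k) * normA f) := by
    simp [Pk, List.range_succ, prd_append]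
  rw [h, Matrix.mul_apply, Fintype.expect_eq_sum_div_card, Finset.sum_div]
  apply Finset.sum_congr rfl
  intro t _
  rw [Matrix.diagonal_mul]
  simp only [normA, Matrix.of_apply]
  ring

lemma Pk_one (f : Sym2 Ω → ℝ) (D : ℕ → Ω → ℝ) (a b : Ω) :
    (Fintype.card Ω : ℝ) * Pk f D 1 a b = D 0 a * f s(a, b) := by
  have h : Pk f D 1 = Matrix.diagonal (D 0) * normA f := by
    simp [Pk, prd]
    rfl
  rw [h, Matrix.diagonal_mul]
  simp only [normA, Matrix.of_apply]
  have := card_ne_zero' (Ω := Ω)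
  field_simp

lemma path_int (f : Sym2 Ω → ℝ) (D : ℕ → Ω → ℝ) (c : ℕ → V) (k : ℕ) (hk : 1 ≤ k)
    (hc : ∀ i j, 1 ≤ i → i < k → j ≤ k → i ≠ j → c i ≠ c j)
    (φ : (V → Ω) → ℝ) (hφ : ∀ i, 1 ≤ i → i < k → ∀ x a, φ (update x (c i) a) = φ x) :
    𝔼 y, φ y * ∏ i ∈ range k, (D i (y (c i)) * f s(y (c i), y (c (i + 1)))) =
      𝔼 y, φ y * ((Fintype.card Ω : ℝ) * Pk f D k (y (c 0)) (y (c k))) := by
  induction k, hk using Nat.le_induction generalizing φ with
  | base =>
    refine Finset.expect_congr rfl ?_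
    intro y _
    simp only [range_one, prod_singleton, zero_add]
    rw [Pk_one]
  | succ k hk ih =>
    have hc' : ∀ i j, 1 ≤ i → i < k → j ≤ k → i ≠ j → c i ≠ c j := by
      intro i j h1 h2 h3 h4
      exact hc i j h1 (by omega) (by omega) h4
    set φ' : (V → Ω) → ℝ := fun y => φ y * (D k (y (c k)) * f s(y (c k), y (c (k + 1)))) with hφ'
    have hφ'' : ∀ i, 1 ≤ i → i < k → ∀ x a, φ' (update x (c i) a) = φ' x := by
      intro i h1 h2 x a
      have hik : c k ≠ c i := (hc i k h1 (by omega) (by omega) (by omega)).symm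
      have hik' : c (k + 1) ≠ c i := (hc i (k + 1) h1 (by omega) (by omega) (by omega)).symm
      simp only [hφ', hφ i h1 (by omega) x a, update_of_ne hik, update_of_ne hik']
    have hih := ih hc' φ' hφ''
    have e1 : 𝔼 y, φ y * ∏ i ∈ range (k + 1), (D i (y (c i)) * f s(y (c i), y (c (i + 1)))) =
        𝔼 y, φ' y * ∏ i ∈ range k, (D i (y (c i)) * f s(y (c i), y (c (i + 1)))) := by
      refine Finset.expect_congr rfl ?_
      intro y _
      rw [Finset.prod_range_succ]
      simp only [hφ']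
      ring
    rw [e1, hih, expect_update _ (c k)]
    refine Finset.expect_congr rfl ?_
    intro y _
    have h0 : c 0 ≠ c k := (hc k 0 (by omega) (by omega) (by omega) (by omega)).symm
    have h1 : c (k + 1) ≠ c k := (hc k (k + 1) (by omega) (by omega) (by omega) (by omega)).symm
    simp only [hφ', hφ k (by omega) (by omega) y, update_self, update_of_ne h0, update_of_ne h1]
    rw [Pk_succ, mul_expect, mul_expect]
    refine Finset.expect_congr rfl ?_
    intro t _
    ring

lemma cyc_int (f : Sym2 Ω → ℝ) (D : ℕ → Ω → ℝ) (c : ℕ → V) (n : ℕ) (hn : 1 ≤ n)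
    (hcl : c n = c 0) (hinj : ∀ i < n, ∀ j < n, c i = c j → i = j) :
    𝔼 y : V → Ω, ∏ i ∈ range n, (D i (y (c i)) * f s(y (c i), y (c (i + 1)))) =
      trc (normA f) ((List.range n).map D) := by
  have hc : ∀ i j, 1 ≤ i → i < n → j ≤ n → i ≠ j → c i ≠ c j := by
    intro i j h1 h2 h3 h4 h5
    by_cases hj : j = n
    · subst hj
      rw [hcl] at h5
      have := hinj i h2 0 (by omega) h5
      omega
    · exact h4 (hinj i h2 j (by omega) h5)
  have h := path_int f D c n hn hc (fun _ => 1) (fun _ _ _ _ _ => rfl)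
  simp only [one_mul] at h
  rw [h]
  simp only [hcl]
  rw [expect_coord (fun a => (Fintype.card Ω : ℝ) * Pk f D n a a) (c 0)]
  rw [Fintype.expect_eq_sum_div_card, ← Finset.mul_sum]
  rw [mul_div_cancel_left₀ _ card_ne_zero']
  rfl

/-- Cycle: `c 0, c 1, ..., c (n-1)` are distinct, `c n = c 0`, consecutive pairs lie in `γ`. -/
structure IsCyc (γ : Finset (Sym2 V)) (n : ℕ) (c : ℕ → V) : Prop where
  three_le : 3 ≤ n
  closed : c n = c 0
  inj : ∀ i < n, ∀ j < n, c i = c j → i = j
  mem : ∀ i < n, s(c i, c (i + 1)) ∈ γ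

/-- The edges of a cycle. -/
def cycEdges (n : ℕ) (c : ℕ → V) : Finset (Sym2 V) := (range n).image fun i => s(c i, c (i + 1))

/-- The vertices of a cycle. -/
def cycVerts (n : ℕ) (c : ℕ → V) : Finset V := (range n).image c

lemma cyc_edge_inj {n : ℕ} {c : ℕ → V} (h3 : 3 ≤ n) (hcl : c n = c 0)
    (hinj : ∀ i < n, ∀ j < n, c i = c j → i = j) :
    Set.InjOn (fun i => s(c i, c (i + 1))) (range n : Set ℕ) := by
  have key : ∀ i < n, ∃ i', i' < n ∧ c (i + 1) = c i' ∧ (i' = i + 1 ∨ (i + 1 = n ∧ i' = 0)) := by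
    intro i hi
    by_cases h : i + 1 = n
    · exact ⟨0, by omega, by rw [h, hcl], Or.inr ⟨h, rfl⟩⟩
    · exact ⟨i + 1, by omega, rfl, Or.inl rfl⟩
  intro i hi j hj hij
  simp only [coe_range, Set.mem_Iio] at hi hj
  obtain ⟨i', hi', hi'c, hi'e⟩ := key i hi
  obtain ⟨j', hj', hj'c, hj'e⟩ := key j hj
  simp only [Sym2.eq_iff] at hij
  rcases hij with ⟨h1, _⟩ | ⟨h1, h2⟩
  · exact hinj i hi j hj h1
  · rw [hj'c] at h1
    rw [hi'c] at h2
    have h3' := hinj i hi j' hj' h1
    have h4 := hinj i' hi' j hj h2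
    omega

lemma card_cycEdges {n : ℕ} {c : ℕ → V} (h3 : 3 ≤ n) (hcl : c n = c 0)
    (hinj : ∀ i < n, ∀ j < n, c i = c j → i = j) : (cycEdges n c).card = n := by
  rw [cycEdges, Finset.card_image_of_injOn (cyc_edge_inj h3 hcl hinj), card_range]

lemma prod_cycEdges {n : ℕ} {c : ℕ → V} (h3 : 3 ≤ n) (hcl : c n = c 0)
    (hinj : ∀ i < n, ∀ j < n, c i = c j → i = j) (g : Sym2 V → ℝ) :
    ∏ e ∈ cycEdges n c, g e = ∏ i ∈ range n, g s(c i, c (i + 1)) := by
  rw [cycEdges, Finset.prod_image (cyc_edge_inj h3 hcl hinj)]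

lemma normal_form (fh : Sym2 Ω → ℝ) (hfh : ∀ p, |fh p| ≤ 1) (n : ℕ) (c : ℕ → V) (hn : 1 ≤ n)
    (F' : Finset (Sym2 V))
    (hF' : ∀ e ∈ F', ∀ i < n, ∀ j < n, c i ∈ e → c j ∈ e → i = j)
    (g : Ω → ℝ) (hg : ∀ a, |g a| ≤ 1) (u : V) (x₀ : V → Ω)
    (hinj : ∀ i < n, ∀ j < n, c i = c j → i = j) :
    ∃ (Ψ₀ : ℝ) (D : ℕ → Ω → ℝ), |Ψ₀| ≤ 1 ∧ (∀ i a, |D i a| ≤ 1) ∧
      ∀ y : V → Ω, g (merge (cycVerts n c) y x₀ u) *
          ∏ e ∈ F', fh (e.map (merge (cycVerts n c) y x₀)) =
        Ψ₀ * ∏ i ∈ range n, D i (y (c i)) := by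
  classical
  set S := cycVerts n c with hS
  have hmem : ∀ v, v ∈ S ↔ ∃ i < n, c i = v := by
    intro v; simp [hS, cycVerts]
  induction F' using Finset.induction_on with
  | empty =>
    by_cases hu : u ∈ S
    · obtain ⟨j, hj, rfl⟩ := (hmem u).1 hu
      refine ⟨1, fun i => if i = j then g else fun _ => 1, by simp, ?_, ?_⟩
      · intro i a
        by_cases h : i = j <;> simp [h, hg]
      · intro y
        simp only [prod_empty, mul_one, one_mul, merge, hu, if_true]
        rw [Finset.prod_eq_single j]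
        · simp
        · intro b _ hb; simp [hb]
        · intro h; exact absurd (Finset.mem_range.2 hj) h
    · refine ⟨g (x₀ u), fun _ _ => 1, hg _, by simp, ?_⟩
      intro y
      simp [merge, hu]
  | insert e F₀ he ih =>
    obtain ⟨Ψ₀, D, h1, h2, h3⟩ := ih (fun e' he' => hF' e' (Finset.mem_insert_of_mem he'))
    by_cases hcyc : ∃ j < n, c j ∈ e
    · obtain ⟨j, hj, hje⟩ := hcyc
      refine ⟨Ψ₀, fun i => if i = j then (fun a => D j a * fh (e.map (update x₀ (c j) a))) else D i,
        h1, ?_, ?_⟩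
      · intro i a
        by_cases h : i = j
        · simp only [h, if_true, abs_mul]
          exact mul_le_one₀ (h2 _ _) (abs_nonneg _) (hfh _)
        · simp [h, h2]
      · intro y
        have e1 : e.map (merge S y x₀) = e.map (update x₀ (c j) (y (c j))) := by
          apply map_congr_of_mem
          intro v hv
          by_cases hvj : v = c j
          · subst hvj
            have : c j ∈ S := (hmem _).2 ⟨j, hj, rfl⟩
            simp [merge, this]
          · have hvS : v ∉ S := by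
              intro hvS
              obtain ⟨i, hi, rfl⟩ := (hmem v).1 hvS
              have := hF' e (Finset.mem_insert_self _ _) i hi j hj hv hje
              exact hvj (by rw [this])
            simp [merge, hvS, update_of_ne hvj]
        rw [Finset.prod_insert he, e1]
        have e2 : ∀ i ∈ range n, (if i = j then (fun a => D j a * fh (e.map (update x₀ (c j) a)))
            else D i) (y (c i)) = D i (y (c i)) *
              (if i = j then fh (e.map (update x₀ (c j) (y (c j)))) else 1) := by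
          intro i _
          by_cases h : i = j
          · subst h; simp
          · simp [h]
        rw [Finset.prod_congr rfl e2, Finset.prod_mul_distrib, Finset.prod_ite_eq' (range n) j]
        have : j ∈ range n := Finset.mem_range.2 hj
        simp only [this, if_true]
        have h4 := h3 y
        calc g (merge S y x₀ u) * (fh (e.map (update x₀ (c j) (y (c j)))) *
              ∏ e ∈ F₀, fh (e.map (merge S y x₀)))
            = (g (merge S y x₀ u) * ∏ e ∈ F₀, fh (e.map (merge S y x₀))) *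
                fh (e.map (update x₀ (c j) (y (c j)))) := by ring
          _ = _ := by rw [h4]; ring
    · refine ⟨Ψ₀ * fh (e.map x₀), D, ?_, h2, ?_⟩
      · rw [abs_mul]
        exact mul_le_one₀ h1 (abs_nonneg _) (hfh _)
      · intro y
        have e1 : e.map (merge S y x₀) = e.map x₀ := by
          apply map_congr_of_mem
          intro v hv
          have hvS : v ∉ S := by
            intro hvS
            obtain ⟨i, hi, rfl⟩ := (hmem v).1 hvS
            exact hcyc ⟨i, hi, hv⟩
          simp [merge, hvS]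
        rw [Finset.prod_insert he, e1]
        have h4 := h3 y
        calc g (merge S y x₀ u) * (fh (e.map x₀) * ∏ e ∈ F₀, fh (e.map (merge S y x₀)))
            = (g (merge S y x₀ u) * ∏ e ∈ F₀, fh (e.map (merge S y x₀))) * fh (e.map x₀) := by ring
          _ = _ := by rw [h4]; ring

/-- The key bound: an induced even cycle controls a weighted density. -/
lemma cycle_bound (f : Sym2 Ω → ℝ) (ε : ℝ) (hε : 0 < ε) (hf : ∀ p, |f p| ≤ ε)
    (n l : ℕ) (hnl : n = 2 * l) (hl : 0 < l) (c : ℕ → V) (h3 : 3 ≤ n) (hcl : c n = c 0)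
    (hinj : ∀ i < n, ∀ j < n, c i = c j → i = j)
    (F' : Finset (Sym2 V))
    (hF' : ∀ e ∈ F', ∀ i < n, ∀ j < n, c i ∈ e → c j ∈ e → i = j)
    (hdisj : Disjoint (cycEdges n c) F')
    (g : Ω → ℝ) (hg : ∀ a, |g a| ≤ 1) (u : V) :
    |𝔼 x : V → Ω, g (x u) * ∏ e ∈ cycEdges n c ∪ F', f (e.map x)| ≤
      ε ^ F'.card * trc (normA f) (List.replicate n (1 : Ω → ℝ)) := by
  classical
  set S := cycVerts n c with hS
  set T := trc (normA f) (List.replicate n (1 : Ω → ℝ)) with hT
  rw [expect_merge S]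
  refine (abs_expect_le _ _).trans ?_
  apply Finset.expect_le univ_nonempty
  intro x₀ _
  -- the normal form
  set fh : Sym2 Ω → ℝ := fun p => f p / ε with hfh
  have hfh1 : ∀ p, |fh p| ≤ 1 := by
    intro p
    simp only [hfh, abs_div, abs_of_pos hε]
    exact (div_le_one hε).2 (hf p)
  obtain ⟨Ψ₀, D, h1, h2, h4⟩ := normal_form fh hfh1 n c (by omega) F' hF' g hg u x₀ hinj
  have hfac : ∀ y : V → Ω, g (merge S y x₀ u) *
      ∏ e ∈ cycEdges n c ∪ F', f (e.map (merge S y x₀)) =
      (ε ^ F'.card * Ψ₀) * ∏ i ∈ range n, (D i (y (c i)) * f s(y (c i), y (c (i + 1)))) := by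
    intro y
    rw [Finset.prod_union hdisj, prod_cycEdges h3 hcl hinj]
    have e1 : ∀ e ∈ F', f (e.map (merge S y x₀)) = ε * fh (e.map (merge S y x₀)) := by
      intro e _
      simp only [hfh]
      field_simp
    rw [Finset.prod_congr rfl e1, Finset.prod_mul_distrib, Finset.prod_const]
    have e2 : ∀ i ∈ range n, f ((s(c i, c (i + 1))).map (merge S y x₀)) =
        f s(y (c i), y (c (i + 1))) := by
      intro i hi
      have hi' := Finset.mem_range.1 hi
      have m1 : c i ∈ S := by simp only [hS, cycVerts, mem_image, mem_range]; exact ⟨i, hi', rfl⟩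
      have m2 : c (i + 1) ∈ S := by
        simp only [hS, cycVerts, mem_image, mem_range]
        by_cases h : i + 1 = n
        · exact ⟨0, by omega, by rw [h, hcl]⟩
        · exact ⟨i + 1, by omega, rfl⟩
      simp [merge, m1, m2]
    rw [Finset.prod_congr rfl e2]
    rw [Finset.prod_mul_distrib]
    have h5 := h4 y
    calc g (merge S y x₀ u) * ((∏ i ∈ range n, f s(y (c i), y (c (i + 1)))) *
          (ε ^ F'.card * ∏ e ∈ F', fh (e.map (merge S y x₀))))
        = ε ^ F'.card * (∏ i ∈ range n, f s(y (c i), y (c (i + 1)))) *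
          (g (merge S y x₀ u) * ∏ e ∈ F', fh (e.map (merge S y x₀))) := by ring
      _ = _ := by rw [h5]; ring
  rw [Finset.expect_congr rfl (fun y _ => hfac y), ← mul_expect, cyc_int f D c n (by omega) hcl hinj]
  have hgood : Good ((List.range n).map D) := by
    intro d hd
    simp only [List.mem_map] at hd
    obtain ⟨i, _, rfl⟩ := hd
    exact h2 i
  have htw := twist (normA f) (normA_symm f) l hl ((List.range n).map D) (by simp [hnl]) hgood
  rw [← hnl] at htw
  rw [abs_mul, abs_mul, abs_of_pos (pow_pos hε _)]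
  have hT0 : 0 ≤ T := (abs_nonneg _).trans htw
  calc ε ^ F'.card * |Ψ₀| * |trc (normA f) ((List.range n).map D)|
      ≤ ε ^ F'.card * 1 * T := by
        apply mul_le_mul _ htw (abs_nonneg _) (by positivity)
        exact mul_le_mul_of_nonneg_left h1 (by positivity)
    _ = ε ^ F'.card * T := by ring

end

end Vale.Agent.Lib.P050
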