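import Vale.Agent.Lib.P050.Twist

set_option linter.unusedSectionVars false

namespace Vale.Agent.Lib.P050

open Finset Function
open scoped BigOperators

variable {V Ω : Type*} [Fintype V] [DecidableEq V] [Fintype Ω] [DecidableEq Ω] [Nonempty Ω]

/-- Overwrite the coordinates in `S` of `x` by those of `y`. -/
def merge (S : Finset V) (y x : V → Ω) : V → Ω := fun v => if v ∈ S then y v else x v

lemma expect_update (φ : (V → Ω) → ℝ) (v : V) :
    𝔼 x, φ x = 𝔼 x, 𝔼 a : Ω, φ (update x v a) := by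
  have hinv : Involutive (fun p : (V → Ω) × Ω => (update p.1 v p.2, p.1 v)) := by
    rintro ⟨x, a⟩
    simp
  have h1 : 𝔼 p : (V → Ω) × Ω, φ (update p.1 v p.2) = 𝔼 p : (V → Ω) × Ω, φ p.1 :=
    Fintype.expect_bijective _ hinv.bijective _ _ (fun p => rfl)
  have h2 : 𝔼 p : (V → Ω) × Ω, φ p.1 = 𝔼 x, φ x := by
    have := Finset.expect_product' (univ : Finset (V → Ω)) (univ : Finset Ω) (fun x _ => φ x)
    simp only [univ_product_univ] at this
    rw [this]
    simp
  have h3 : 𝔼 p : (V → Ω) × Ω, φ (update p.1 v p.2) = 𝔼 x, 𝔼 a : Ω, φ (update x v a) := by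
    have := Finset.expect_product' (univ : Finset (V → Ω)) (univ : Finset Ω)
      (fun x a => φ (update x v a))
    simpa only [univ_product_univ] using this
  rw [← h2, ← h1, h3]

lemma expect_merge (S : Finset V) (φ : (V → Ω) → ℝ) :
    𝔼 x, φ x = 𝔼 x, 𝔼 y, φ (merge S y x) := by
  have hinv : Involutive (fun p : (V → Ω) × (V → Ω) => (merge S p.2 p.1, merge S p.1 p.2)) := by
    rintro ⟨x, y⟩
    ext v <;> by_cases hv : v ∈ S <;> simp [merge, hv]
  have h1 : 𝔼 p : (V → Ω) × (V → Ω), φ (merge S p.2 p.1) = 𝔼 p : (V → Ω) × (V → Ω), φ p.1 :=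
    Fintype.expect_bijective _ hinv.bijective _ _ (fun p => rfl)
  have h2 : 𝔼 p : (V → Ω) × (V → Ω), φ p.1 = 𝔼 x, φ x := by
    have := Finset.expect_product' (univ : Finset (V → Ω)) (univ : Finset (V → Ω)) (fun x _ => φ x)
    simp only [univ_product_univ] at this
    rw [this]
    simp
  have h3 : 𝔼 p : (V → Ω) × (V → Ω), φ (merge S p.2 p.1) = 𝔼 x, 𝔼 y, φ (merge S y x) := by
    have := Finset.expect_product' (univ : Finset (V → Ω)) (univ : Finset (V → Ω))
      (fun x y => φ (merge S y x))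
    simpa only [univ_product_univ] using this
  rw [← h2, ← h1, h3]

lemma expect_coord (g : Ω → ℝ) (v : V) : 𝔼 x : V → Ω, g (x v) = 𝔼 a, g a := by
  rw [expect_update _ v]
  simp

lemma map_congr_of_mem (e : Sym2 V) (x y : V → Ω) (h : ∀ v ∈ e, x v = y v) :
    e.map x = e.map y := by
  induction e using Sym2.ind with
  | _ a b =>
    simp only [Sym2.map_mk]
    rw [h a (by simp), h b (by simp)]

end Vale.Agent.Lib.P050
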