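import Vale.Agent.Lib.P050.Graph

set_option linter.unusedSectionVars false
set_option linter.unusedVariables false

namespace Vale.Agent.Lib.P050

noncomputable section

open Finset Function
open scoped BigOperators Classical

variable {V : Type*} [Fintype V] [DecidableEq V]

/-- Connectivity of `γ` relative to a part `S`. -/
def SConn (S γ : Finset (Sym2 V)) : Prop :=
  ∀ Y, S ⊆ Y → Y ⊆ γ → Y ≠ γ → ∃ g ∈ γ \ Y, Touches g Y

/-- The exploration family. -/
def explSet (E S B : Finset (Sym2 V)) : Finset (Finset (Sym2 V)) :=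
  E.powerset.filter (fun γ => S ⊆ γ ∧ Disjoint γ B ∧ SConn S γ)

/-- The boundary. -/
def bdry (E S B : Finset (Sym2 V)) : Finset (Sym2 V) :=
  E.filter (fun g => g ∉ S ∧ g ∉ B ∧ Touches g S)

lemma mem_explSet {E S B γ : Finset (Sym2 V)} :
    γ ∈ explSet E S B ↔ γ ⊆ E ∧ S ⊆ γ ∧ Disjoint γ B ∧ SConn S γ := by
  simp [explSet]

lemma mem_bdry {E S B : Finset (Sym2 V)} {g : Sym2 V} :
    g ∈ bdry E S B ↔ g ∈ E ∧ g ∉ S ∧ g ∉ B ∧ Touches g S := by
  simp [bdry]

lemma Touches.mono {g : Sym2 V} {Y Y' : Finset (Sym2 V)} (h : Touches g Y) (hY : Y ⊆ Y') :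
    Touches g Y' := by
  obtain ⟨v, hv, h', hh', hvh⟩ := h
  exact ⟨v, hv, h', hY hh', hvh⟩

lemma sconn_self (S : Finset (Sym2 V)) : SConn S S := by
  intro Y h1 h2 h3
  exact absurd (Finset.Subset.antisymm h2 h1) h3

lemma expl_base {E S B : Finset (Sym2 V)} (hS : S ⊆ E) (hSB : Disjoint S B)
    (h : bdry E S B = ∅) : explSet E S B = {S} := by
  ext γ
  simp only [mem_explSet, Finset.mem_singleton]
  constructor
  · rintro ⟨h1, h2, h3, h4⟩
    by_contra hne
    obtain ⟨g, hg, hT⟩ := h4 S (Finset.Subset.refl _) h2 (Ne.symm hne)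
    simp only [Finset.mem_sdiff] at hg
    have hgb : g ∉ B := fun hb => (Finset.disjoint_left.1 h3) hg.1 hb
    have : g ∈ bdry E S B := mem_bdry.2 ⟨h1 hg.1, hg.2, hgb, hT⟩
    rw [h] at this
    simp at this
  · rintro rfl
    exact ⟨hS, Finset.Subset.refl _, hSB, sconn_self _⟩

lemma expl_step {E S B : Finset (Sym2 V)} {g : Sym2 V} (hg : g ∈ bdry E S B) :
    explSet E S B = explSet E S (insert g B) ∪ explSet E (insert g S) B := by
  obtain ⟨hgE, hgS, hgB, hT⟩ := mem_bdry.1 hg
  ext γ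
  simp only [Finset.mem_union, mem_explSet]
  constructor
  · rintro ⟨h1, h2, h3, h4⟩
    by_cases hgγ : g ∈ γ
    · right
      refine ⟨h1, Finset.insert_subset hgγ h2, h3, ?_⟩
      intro Y hY1 hY2 hY3
      exact h4 Y ((Finset.subset_insert _ _).trans hY1) hY2 hY3
    · left
      refine ⟨h1, h2, ?_, h4⟩
      rw [Finset.disjoint_insert_right]
      exact ⟨hgγ, h3⟩
  · rintro (⟨h1, h2, h3, h4⟩ | ⟨h1, h2, h3, h4⟩)
    · refine ⟨h1, h2, ?_, h4⟩
      rw [Finset.disjoint_insert_right] at h3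
      exact h3.2
    · refine ⟨h1, (Finset.subset_insert _ _).trans h2, h3, ?_⟩
      intro Y hY1 hY2 hY3
      by_cases hgY : g ∈ Y
      · exact h4 Y (Finset.insert_subset hgY hY1) hY2 hY3
      · refine ⟨g, ?_, hT.mono hY1⟩
        simp only [Finset.mem_sdiff]
        exact ⟨h2 (Finset.mem_insert_self _ _), hgY⟩

lemma expl_step_disj {E S B : Finset (Sym2 V)} (g : Sym2 V) :
    Disjoint (explSet E S (insert g B)) (explSet E (insert g S) B) := by
  rw [Finset.disjoint_left]
  intro γ h1 h2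
  obtain ⟨_, _, h3, _⟩ := mem_explSet.1 h1
  obtain ⟨_, h4, _, _⟩ := mem_explSet.1 h2
  rw [Finset.disjoint_insert_right] at h3
  exact h3.1 (h4 (Finset.mem_insert_self _ _))

/-- A general recursion principle for sums over the exploration family. -/
lemma expl_sum_step {E S B : Finset (Sym2 V)} {g : Sym2 V} (hg : g ∈ bdry E S B)
    (Φ : Finset (Sym2 V) → ℝ) :
    ∑ γ ∈ explSet E S B, Φ γ =
      ∑ γ ∈ explSet E S (insert g B), Φ γ + ∑ γ ∈ explSet E (insert g S) B, Φ γ := by
  rw [expl_step hg, Finset.sum_union (expl_step_disj g)]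

lemma card_bdry_remove {E S B : Finset (Sym2 V)} {g : Sym2 V} (hg : g ∈ bdry E S B) :
    (bdry E S (insert g B)).card + 1 = (bdry E S B).card := by
  have : bdry E S (insert g B) = (bdry E S B).erase g := by
    ext h
    simp only [mem_bdry, Finset.mem_insert, Finset.mem_erase, not_or]
    constructor
    · rintro ⟨h1, h2, ⟨h3, h4⟩, h5⟩
      exact ⟨h3, h1, h2, h4, h5⟩
    · rintro ⟨h1, h2, h3, h4, h5⟩
      exact ⟨h2, h3, ⟨h1, h4⟩, h5⟩
  rw [this, Finset.card_erase_add_one hg]

lemma card_bdry_add {E S B : Finset (Sym2 V)} {g : Sym2 V} (hg : g ∈ bdry E S B) (Δ : ℕ)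
    (hdeg : ∀ v, (E.filter (fun h => v ∈ h)).card ≤ Δ) :
    (bdry E (insert g S) B).card + 2 ≤ (bdry E S B).card + Δ := by
  obtain ⟨hgE, hgS, hgB, hT⟩ := mem_bdry.1 hg
  obtain ⟨v, hv, h', hh', hvh⟩ := hT
  obtain ⟨v', rfl⟩ := hv
  have hsub : bdry E (insert s(v, v') S) B ⊆
      ((bdry E S B).erase s(v, v')) ∪ ((E.filter (fun h => v' ∈ h)).erase s(v, v')) := by
    intro h hh
    obtain ⟨h1, h2, h3, w, hw, h'', hh'', hwh⟩ := mem_bdry.1 hh
    simp only [Finset.mem_insert, not_or] at h2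
    simp only [Finset.mem_union, Finset.mem_erase, mem_bdry, Finset.mem_filter]
    rcases Finset.mem_insert.1 hh'' with rfl | hS''
    · simp only [Sym2.mem_iff] at hwh
      rcases hwh with rfl | rfl
      · left
        exact ⟨h2.1, h1, h2.2, h3, w, hw, h', hh', hvh⟩
      · right
        exact ⟨h2.1, h1, hw⟩
    · left
      exact ⟨h2.1, h1, h2.2, h3, w, hw, h'', hS'', hwh⟩
  have hc := Finset.card_le_card hsub
  have hc2 := Finset.card_union_le ((bdry E S B).erase s(v, v'))
    ((E.filter (fun h => v' ∈ h)).erase s(v, v'))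
  have hc3 : ((bdry E S B).erase s(v, v')).card + 1 = (bdry E S B).card :=
    Finset.card_erase_add_one hg
  have hmem : s(v, v') ∈ E.filter (fun h => v' ∈ h) := by
    simp [hgE]
  have hc4 : ((E.filter (fun h => v' ∈ h)).erase s(v, v')).card + 1 =
      (E.filter (fun h => v' ∈ h)).card := Finset.card_erase_add_one hmem
  have hc5 := hdeg v'
  omega

/-- The counting bound along the exploration. -/
lemma expl_count (E : Finset (Sym2 V)) (Δ : ℕ)
    (hdeg : ∀ v, (E.filter (fun h => v ∈ h)).card ≤ Δ)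
    (η ρ : ℝ) (hη : 0 ≤ η) (hρ : 1 ≤ ρ) (hηρ : 1 + η * ρ ^ (Δ - 1) ≤ ρ) :
    ∀ (N : ℕ) (S B : Finset (Sym2 V)), S ⊆ E → Disjoint S B → (E \ (S ∪ B)).card ≤ N →
      ∑ γ ∈ explSet E S B, η ^ (γ \ S).card ≤ ρ ^ (bdry E S B).card := by
  have hbase : ∀ S B : Finset (Sym2 V), S ⊆ E → Disjoint S B → bdry E S B = ∅ →
      ∑ γ ∈ explSet E S B, η ^ (γ \ S).card ≤ ρ ^ (bdry E S B).card := by
    intro S B hS hd h
    rw [expl_base hS hd h, h]
    simp
  have hstep : ∀ (N : ℕ), (∀ (S B : Finset (Sym2 V)), S ⊆ E → Disjoint S B → (E \ (S ∪ B)).card ≤ N →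
      ∑ γ ∈ explSet E S B, η ^ (γ \ S).card ≤ ρ ^ (bdry E S B).card) →
      ∀ (S B : Finset (Sym2 V)) (g : Sym2 V), S ⊆ E → Disjoint S B → (E \ (S ∪ B)).card ≤ N + 1 →
      g ∈ bdry E S B →
      ∑ γ ∈ explSet E S B, η ^ (γ \ S).card ≤ ρ ^ (bdry E S B).card := by
    intro N ih S B g hS hd hN hg
    obtain ⟨hgE, hgS, hgB, hT⟩ := mem_bdry.1 hg
    have hmem : g ∈ E \ (S ∪ B) := by
      simp [hgE, hgS, hgB]
    have hc1 : (E \ (S ∪ insert g B)).card ≤ N := by
      have : E \ (S ∪ insert g B) = (E \ (S ∪ B)).erase g := by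
        ext h
        simp only [Finset.mem_sdiff, Finset.mem_union, Finset.mem_insert, Finset.mem_erase]
        tauto
      rw [this, Finset.card_erase_of_mem hmem]
      omega
    have hc2 : (E \ (insert g S ∪ B)).card ≤ N := by
      have : E \ (insert g S ∪ B) = (E \ (S ∪ B)).erase g := by
        ext h
        simp only [Finset.mem_sdiff, Finset.mem_union, Finset.mem_insert, Finset.mem_erase]
        tauto
      rw [this, Finset.card_erase_of_mem hmem]
      omega
    have hd1 : Disjoint S (insert g B) := by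
      rw [Finset.disjoint_insert_right]
      exact ⟨hgS, hd⟩
    have hd2 : Disjoint (insert g S) B := by
      rw [Finset.disjoint_insert_left]
      exact ⟨hgB, hd⟩
    have hS2 : insert g S ⊆ E := Finset.insert_subset hgE hS
    have h1 := ih S (insert g B) hS hd1 hc1
    have h2 := ih (insert g S) B hS2 hd2 hc2
    have e1 := card_bdry_remove hg
    have e2 := card_bdry_add hg Δ hdeg
    set k := (bdry E S B).card with hk
    have hk1 : 1 ≤ k := Finset.card_pos.2 ⟨g, hg⟩
    have hsecond : ∑ γ ∈ explSet E (insert g S) B, η ^ (γ \ S).card =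
        η * ∑ γ ∈ explSet E (insert g S) B, η ^ (γ \ insert g S).card := by
      rw [Finset.mul_sum]
      apply Finset.sum_congr rfl
      intro γ hγ
      obtain ⟨_, h3, _, _⟩ := mem_explSet.1 hγ
      have hgγ : g ∈ γ := h3 (Finset.mem_insert_self _ _)
      have : γ \ S = insert g (γ \ insert g S) := by
        ext h
        simp only [Finset.mem_sdiff, Finset.mem_insert]
        by_cases hh : h = g
        · subst hh; simp [hgγ, hgS]
        · simp [hh]
      rw [this, Finset.card_insert_of_notMem (by simp), pow_succ]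
      ring
    rw [expl_sum_step hg, hsecond]
    have hρ0 : 0 < ρ := by linarith
    have hk2 : (bdry E (insert g S) B).card ≤ (k - 1) + (Δ - 1) := by omega
    have hk3 : (bdry E S (insert g B)).card = k - 1 := by omega
    calc _ ≤ ρ ^ (k - 1) + η * ρ ^ ((k - 1) + (Δ - 1)) := by
          apply add_le_add
          · rw [← hk3]; exact h1
          · apply mul_le_mul_of_nonneg_left _ hη
            exact h2.trans (pow_le_pow_right₀ hρ hk2)
      _ = ρ ^ (k - 1) * (1 + η * ρ ^ (Δ - 1)) := by rw [pow_add]; ring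
      _ ≤ ρ ^ (k - 1) * ρ := mul_le_mul_of_nonneg_left hηρ (by positivity)
      _ = ρ ^ k := by
          rw [← pow_succ]
          congr 1
          omega
  intro N
  induction N with
  | zero =>
    intro S B hS hd hN
    by_cases h : bdry E S B = ∅
    · exact hbase S B hS hd h
    · exfalso
      obtain ⟨g, hg⟩ := Finset.nonempty_iff_ne_empty.2 h
      obtain ⟨hgE, hgS, hgB, hT⟩ := mem_bdry.1 hg
      have hmem : g ∈ E \ (S ∪ B) := by
        simp [hgE, hgS, hgB]
      have := Finset.card_pos.2 ⟨g, hmem⟩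
      omega
  | succ N ih =>
    intro S B hS hd hN
    by_cases h : bdry E S B = ∅
    · exact hbase S B hS hd h
    · obtain ⟨g, hg⟩ := Finset.nonempty_iff_ne_empty.2 h
      exact hstep N ih S B g hS hd hN hg

lemma Conn.sconn {γ S : Finset (Sym2 V)} (h : Conn γ) (hS : S.Nonempty) : SConn S γ := by
  intro Y h1 h2 h3
  exact h Y h2 (hS.mono h1) h3

lemma sconn_singleton_iff {γ : Finset (Sym2 V)} {e : Sym2 V} (he : e ∈ γ) :
    SConn {e} γ ↔ Conn γ := by
  constructor
  · intro h Y h1 h2 h3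
    by_cases heY : e ∈ Y
    · exact h Y (by simpa using heY) h1 h3
    · have h4 : γ \ Y ≠ γ := by
        intro h5
        obtain ⟨y, hy⟩ := h2
        have : y ∈ γ \ Y := by rw [h5]; exact h1 hy
        exact (Finset.mem_sdiff.1 this).2 hy
      obtain ⟨g, hg, v, hv, h', hh', hvh⟩ := h (γ \ Y) (by simp [he, heY]) Finset.sdiff_subset h4
      simp only [Finset.mem_sdiff, not_and, not_not] at hg hh'
      have hgY : g ∈ Y := hg.2 hg.1
      exact ⟨h', by simp [hh'.1, hh'.2], v, hvh, g, hgY, hv⟩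
  · intro h
    exact h.sconn ⟨e, by simp⟩

/-- Vertex set of an edge set. -/
def vset (S : Finset (Sym2 V)) : Finset V := S.biUnion Sym2.toFinset

lemma mem_vset {S : Finset (Sym2 V)} {v : V} : v ∈ vset S ↔ ∃ h ∈ S, v ∈ h := by
  simp [vset, Sym2.mem_toFinset]

lemma touches_iff {g : Sym2 V} {S : Finset (Sym2 V)} : Touches g S ↔ ∃ v ∈ g, v ∈ vset S := by
  simp only [Touches, mem_vset]

lemma card_bdry_le (E S B : Finset (Sym2 V)) (Δ : ℕ)
    (hdeg : ∀ v, (E.filter (fun h => v ∈ h)).card ≤ Δ) :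
    (bdry E S B).card ≤ Δ * (vset S).card := by
  have hsub : bdry E S B ⊆ (vset S).biUnion (fun v => E.filter (fun h => v ∈ h)) := by
    intro g hg
    obtain ⟨hgE, _, _, hT⟩ := mem_bdry.1 hg
    obtain ⟨v, hv, hvS⟩ := touches_iff.1 hT
    simp only [Finset.mem_biUnion, Finset.mem_filter]
    exact ⟨v, hvS, hgE, hv⟩
  calc (bdry E S B).card ≤ _ := Finset.card_le_card hsub
    _ ≤ ∑ v ∈ vset S, (E.filter (fun h => v ∈ h)).card := Finset.card_biUnion_le
    _ ≤ ∑ _v ∈ vset S, Δ := Finset.sum_le_sum (fun v _ => hdeg v)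
    _ = Δ * (vset S).card := by simp [mul_comm]

/-- The counting bound for connected supersets. -/
lemma conn_count (E : Finset (Sym2 V)) (Δ : ℕ)
    (hdeg : ∀ v, (E.filter (fun h => v ∈ h)).card ≤ Δ)
    (η ρ : ℝ) (hη : 0 ≤ η) (hρ : 1 ≤ ρ) (hηρ : 1 + η * ρ ^ (Δ - 1) ≤ ρ)
    (S : Finset (Sym2 V)) (hS : S ⊆ E) (hne : S.Nonempty) :
    ∑ γ ∈ E.powerset.filter (fun γ => S ⊆ γ ∧ Conn γ), η ^ (γ \ S).card ≤
      ρ ^ (Δ * (vset S).card) := by
  have h1 := expl_count E Δ hdeg η ρ hη hρ hηρ _ S ∅ hS (by simp) le_rfl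
  have hsub : E.powerset.filter (fun γ => S ⊆ γ ∧ Conn γ) ⊆ explSet E S ∅ := by
    intro γ hγ
    simp only [Finset.mem_filter, Finset.mem_powerset] at hγ
    exact mem_explSet.2 ⟨hγ.1, hγ.2.1, by simp, hγ.2.2.sconn hne⟩
  calc _ ≤ ∑ γ ∈ explSet E S ∅, η ^ (γ \ S).card :=
        Finset.sum_le_sum_of_subset_of_nonneg hsub (fun _ _ _ => pow_nonneg hη _)
    _ ≤ ρ ^ (bdry E S ∅).card := h1
    _ ≤ _ := pow_le_pow_right₀ hρ (card_bdry_le E S ∅ Δ hdeg)

/-- Vertices versus edges in a connected set. -/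
lemma card_vset_le_aux {γ Y : Finset (Sym2 V)} (h : Conn γ) (hY : Y ⊆ γ) (hne : Y.Nonempty) :
    (vset γ).card ≤ (vset Y).card + (γ \ Y).card := by
  induction hN : (γ \ Y).card generalizing Y with
  | zero =>
    have h1 : γ \ Y = ∅ := Finset.card_eq_zero.1 hN
    have h2 : γ ⊆ Y := Finset.sdiff_eq_empty_iff_subset.1 h1
    have h3 : γ = Y := Finset.Subset.antisymm h2 hY
    rw [h3]; simp
  | succ N ih =>
    have hYne : Y ≠ γ := by
      intro h3
      rw [h3] at hN
      simp at hN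
    obtain ⟨g, hg, v, hv, h', hh', hvh⟩ := h Y hY hne hYne
    simp only [Finset.mem_sdiff] at hg
    have hc : (γ \ insert g Y).card = N := by
      have : γ \ insert g Y = (γ \ Y).erase g := by
        ext a
        simp only [Finset.mem_sdiff, Finset.mem_insert, Finset.mem_erase]
        tauto
      rw [this, Finset.card_erase_of_mem (by simp [hg]), hN]
      rfl
    have hih := ih (Finset.insert_subset hg.1 hY) (Finset.insert_nonempty _ _) hc
    -- a single new vertex
    obtain ⟨v', rfl⟩ := hv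
    have hsub : vset (insert s(v, v') Y) ⊆ insert v' (vset Y) := by
      intro a ha
      obtain ⟨b, hb, hab⟩ := mem_vset.1 ha
      rcases Finset.mem_insert.1 hb with rfl | hb'
      · simp only [Sym2.mem_iff] at hab
        rcases hab with rfl | rfl
        · exact Finset.mem_insert_of_mem (mem_vset.2 ⟨h', hh', hvh⟩)
        · exact Finset.mem_insert_self _ _
      · exact Finset.mem_insert_of_mem (mem_vset.2 ⟨b, hb', hab⟩)
    have h4 := Finset.card_le_card hsub
    have h5 := Finset.card_insert_le v' (vset Y)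
    omega

lemma card_vset_le {γ : Finset (Sym2 V)} (h : Conn γ) (hne : γ.Nonempty) :
    (vset γ).card ≤ γ.card + 1 := by
  obtain ⟨e, he⟩ := hne
  have h1 := card_vset_le_aux h (Finset.singleton_subset_iff.2 he) ⟨e, by simp⟩
  have h2 : (vset ({e} : Finset (Sym2 V))).card ≤ 2 := by
    induction e using Sym2.ind with
    | _ a b =>
      have : vset ({s(a, b)} : Finset (Sym2 V)) ⊆ {a, b} := by
        intro v hv
        obtain ⟨h', hh', hvh⟩ := mem_vset.1 hv
        rw [Finset.mem_singleton] at hh'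
        subst hh'
        simpa using hvh
      exact (Finset.card_le_card this).trans Finset.card_le_two
  have h3 : (γ \ {e}).card + 1 = γ.card := by
    rw [Finset.sdiff_singleton_eq_erase, Finset.card_erase_add_one he]
  omega

end

end Vale.Agent.Lib.P050
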