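import Vale.Agent.Lib.P050.Charge

set_option linter.unusedSectionVars false
set_option linter.unusedVariables false

namespace Vale.Agent.Lib.P050

noncomputable section

open Finset Function
open scoped BigOperators Classical

variable {V Ω : Type*} [Fintype V] [DecidableEq V] [Fintype Ω] [DecidableEq Ω] [Nonempty Ω]

lemma rho_pow_le (Δ : ℕ) (hΔ : 1 ≤ Δ) : (1 + 1 / (Δ : ℝ)) ^ Δ ≤ 3 := by
  have hΔ' : (0 : ℝ) < Δ := by exact_mod_cast hΔ
  have h1 : (1 + 1 / (Δ : ℝ)) ≤ Real.exp (1 / (Δ : ℝ)) := by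
    have := Real.add_one_le_exp (1 / (Δ : ℝ))
    linarith
  have h2 : (1 + 1 / (Δ : ℝ)) ^ Δ ≤ Real.exp (1 / (Δ : ℝ)) ^ Δ :=
    pow_le_pow_left₀ (by positivity) h1 Δ
  have h3 : Real.exp (1 / (Δ : ℝ)) ^ Δ = Real.exp 1 := by
    rw [← Real.exp_nat_mul]
    congr 1
    field_simp
  rw [h3] at h2
  have h4 := Real.exp_one_lt_d9
  linarith

lemma count_all (E : Finset (Sym2 V)) (Δ : ℕ) (hΔ : 1 ≤ Δ)
    (hdeg : ∀ v, (E.filter (fun h => v ∈ h)).card ≤ Δ)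
    (S : Finset (Sym2 V)) (hS : S ⊆ E) (hne : S.Nonempty) :
    ∑ γ ∈ E.powerset.filter (fun γ => S ⊆ γ ∧ Conn γ), (1 / (3 * (Δ : ℝ))) ^ (γ \ S).card ≤
      3 ^ (vset S).card := by
  have hΔ' : (0 : ℝ) < Δ := by exact_mod_cast hΔ
  set ρ : ℝ := 1 + 1 / (Δ : ℝ) with hρ
  have hρ1 : 1 ≤ ρ := by
    have : 0 ≤ 1 / (Δ : ℝ) := by positivity
    linarith
  have hρΔ := rho_pow_le Δ hΔ
  have hηρ : 1 + (1 / (3 * (Δ : ℝ))) * ρ ^ (Δ - 1) ≤ ρ := by
    have h1 : ρ ^ (Δ - 1) ≤ 3 := (pow_le_pow_right₀ hρ1 (Nat.sub_le _ _)).trans hρΔ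
    have h2 : (1 / (3 * (Δ : ℝ))) * ρ ^ (Δ - 1) ≤ (1 / (3 * (Δ : ℝ))) * 3 :=
      mul_le_mul_of_nonneg_left h1 (by positivity)
    have h3 : (1 / (3 * (Δ : ℝ))) * 3 = 1 / (Δ : ℝ) := by field_simp
    rw [hρ]
    linarith
  have h := conn_count E Δ hdeg (1 / (3 * (Δ : ℝ))) ρ (by positivity) hρ1 hηρ S hS hne
  refine h.trans ?_
  rw [pow_mul]
  exact pow_le_pow_left₀ (by positivity) hρΔ _

lemma count_strict (E : Finset (Sym2 V)) (Δ : ℕ) (hΔ : 1 ≤ Δ)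
    (hdeg : ∀ v, (E.filter (fun h => v ∈ h)).card ≤ Δ)
    (σ : ℝ) (hσ0 : 0 ≤ σ) (hσ1 : σ ≤ 1)
    (S : Finset (Sym2 V)) (hS : S ⊆ E) (hne : S.Nonempty) :
    ∑ γ ∈ E.powerset.filter (fun γ => S ⊆ γ ∧ Conn γ ∧ γ ≠ S),
      (σ * (1 / (3 * (Δ : ℝ)))) ^ (γ \ S).card ≤ σ * 3 ^ (vset S).card := by
  have hΔ' : (0 : ℝ) < Δ := by exact_mod_cast hΔ
  have h0 : (0 : ℝ) ≤ 1 / (3 * (Δ : ℝ)) := by positivity
  have hterm : ∀ γ ∈ E.powerset.filter (fun γ => S ⊆ γ ∧ Conn γ ∧ γ ≠ S),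
      (σ * (1 / (3 * (Δ : ℝ)))) ^ (γ \ S).card ≤ σ * (1 / (3 * (Δ : ℝ))) ^ (γ \ S).card := by
    intro γ hγ
    simp only [Finset.mem_filter, Finset.mem_powerset] at hγ
    have hj : (γ \ S).card ≠ 0 := by
      intro h
      have h1 : γ \ S = ∅ := Finset.card_eq_zero.1 h
      have h2 : γ ⊆ S := Finset.sdiff_eq_empty_iff_subset.1 h1
      exact hγ.2.2.2 (Finset.Subset.antisymm h2 hγ.2.1)
    rw [mul_pow]
    apply mul_le_mul_of_nonneg_right _ (by positivity)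
    calc σ ^ (γ \ S).card ≤ σ ^ 1 := pow_le_pow_of_le_one hσ0 hσ1 (Nat.one_le_iff_ne_zero.2 hj)
      _ = σ := pow_one σ
  have hsub : E.powerset.filter (fun γ => S ⊆ γ ∧ Conn γ ∧ γ ≠ S) ⊆
      E.powerset.filter (fun γ => S ⊆ γ ∧ Conn γ) := by
    intro γ hγ
    simp only [Finset.mem_filter, Finset.mem_powerset] at hγ ⊢
    exact ⟨hγ.1, hγ.2.1, hγ.2.2.1⟩
  calc _ ≤ ∑ γ ∈ E.powerset.filter (fun γ => S ⊆ γ ∧ Conn γ ∧ γ ≠ S),
        σ * (1 / (3 * (Δ : ℝ))) ^ (γ \ S).card := Finset.sum_le_sum hterm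
    _ = σ * ∑ γ ∈ E.powerset.filter (fun γ => S ⊆ γ ∧ Conn γ ∧ γ ≠ S),
        (1 / (3 * (Δ : ℝ))) ^ (γ \ S).card := by rw [Finset.mul_sum]
    _ ≤ σ * ∑ γ ∈ E.powerset.filter (fun γ => S ⊆ γ ∧ Conn γ),
        (1 / (3 * (Δ : ℝ))) ^ (γ \ S).card := by
        apply mul_le_mul_of_nonneg_left _ hσ0
        exact Finset.sum_le_sum_of_subset_of_nonneg hsub (fun _ _ _ => by positivity)
    _ ≤ σ * 3 ^ (vset S).card :=
        mul_le_mul_of_nonneg_left (count_all E Δ hΔ hdeg S hS hne) hσ0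

/-- The constant `κ`. -/
def kap : ℝ := 1000 / 999

lemma kap_one : 1 ≤ kap := by norm_num [kap]
lemma kap_pos : 0 < kap := by norm_num [kap]

section constants

variable {Δ : ℕ} (hΔ : 1 ≤ Δ)

include hΔ

lemma eps_facts : (1 : ℝ) / (1000 * Δ) ≤ 1 / 1000 ∧ 0 < (1 : ℝ) / (1000 * Δ) := by
  have hΔ' : (1 : ℝ) ≤ Δ := by exact_mod_cast hΔ
  constructor
  · apply one_div_le_one_div_of_le (by norm_num)
    linarith
  · positivity

lemma kap_lower : 1 ≤ (1 - (1 : ℝ) / (1000 * Δ)) ^ Δ * kap := by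
  have hΔ' : (1 : ℝ) ≤ Δ := by exact_mod_cast hΔ
  obtain ⟨h1, h2⟩ := eps_facts hΔ
  set ε : ℝ := (1 : ℝ) / (1000 * Δ) with hε
  have hB : 1 + (Δ : ℝ) * (-ε) ≤ (1 + -ε) ^ Δ :=
    one_add_mul_le_pow (by linarith) Δ
  have h3 : (Δ : ℝ) * ε = 1 / 1000 := by
    rw [hε]; field_simp
  have h4 : (999 : ℝ) / 1000 ≤ (1 - ε) ^ Δ := by
    have e : (1 - ε) = 1 + -ε := by ring
    rw [e]
    nlinarith
  have h5 : (999 : ℝ) / 1000 * kap = 1 := by norm_num [kap]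
  have := mul_le_mul_of_nonneg_right h4 kap_pos.le
  linarith

lemma kap_upper : (1 + (1 : ℝ) / (1000 * Δ)) ^ Δ ≤ kap := by
  obtain ⟨h1, h2⟩ := eps_facts hΔ
  have h3 := kap_lower hΔ
  set ε : ℝ := (1 : ℝ) / (1000 * Δ) with hε
  have h4 : (1 + ε) ^ Δ * (1 - ε) ^ Δ ≤ 1 := by
    rw [← mul_pow]
    apply pow_le_one₀
    · apply mul_nonneg <;> linarith
    · nlinarith
  have h5 : 0 < (1 + ε) ^ Δ := by positivity
  have hκ := kap_pos
  calc (1 + ε) ^ Δ ≤ (1 + ε) ^ Δ * ((1 - ε) ^ Δ * kap) :=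
        le_mul_of_one_le_right h5.le h3
    _ = ((1 + ε) ^ Δ * (1 - ε) ^ Δ) * kap := by ring
    _ ≤ 1 * kap := mul_le_mul_of_nonneg_right h4 hκ.le
    _ = kap := one_mul _

end constants

lemma numeric_cycle (l : ℕ) (hl : 2 ≤ l) :
    2 * kap ^ (4 * l + 1) * 9 ^ l * (((4 : ℝ)⁻¹) ^ (2 * l - 2) * (3 * kap / 4000) +
      (3 * kap / 1000) ^ l) ≤ 1 := by
  obtain ⟨l', rfl⟩ : ∃ l', l = l' + 1 := ⟨l - 1, by omega⟩
  have e1 : 2 * (l' + 1) - 2 = 2 * l' := by omega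
  rw [e1, pow_mul]
  have e2 : ((4 : ℝ)⁻¹) ^ 2 = 1 / 16 := by norm_num
  rw [e2]
  set r₁ : ℝ := 9 * kap ^ 4 / 16 with hr₁
  set r₂ : ℝ := 9 * kap ^ 4 * (3 * kap / 1000) with hr₂
  have hr₁0 : 0 ≤ r₁ := by rw [hr₁]; norm_num [kap]
  have hr₁1 : r₁ ≤ 1 := by rw [hr₁]; norm_num [kap]
  have hr₂0 : 0 ≤ r₂ := by rw [hr₂]; norm_num [kap]
  have hr₂1 : r₂ ≤ 1 := by rw [hr₂]; norm_num [kap]
  have e3 : 2 * kap ^ (4 * (l' + 1) + 1) * 9 ^ (l' + 1) * ((1 / 16 : ℝ) ^ l' * (3 * kap / 4000) +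
      (3 * kap / 1000) ^ (l' + 1)) =
      2 * kap * (r₁ ^ l' * (9 * kap ^ 4) * (3 * kap / 4000) + r₂ ^ l' * r₂) := by
    rw [hr₁, hr₂]
    have e4 : (9 * kap ^ 4 / 16) ^ l' = 9 ^ l' * kap ^ (4 * l') * (1 / 16) ^ l' := by
      rw [div_eq_mul_one_div, mul_pow, mul_pow, pow_mul]
    have e5 : (9 * kap ^ 4 * (3 * kap / 1000)) ^ l' =
        9 ^ l' * kap ^ (4 * l') * (3 * kap / 1000) ^ l' := by
      rw [mul_pow, mul_pow, pow_mul]
    rw [e4, e5]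
    ring
  rw [e3]
  have h1 : r₁ ^ l' ≤ 1 := pow_le_one₀ hr₁0 hr₁1
  have h2 : r₂ ^ l' ≤ 1 := pow_le_one₀ hr₂0 hr₂1
  have h3 : r₁ ^ l' * (9 * kap ^ 4) * (3 * kap / 4000) ≤ 1 * (9 * kap ^ 4) * (3 * kap / 4000) := by
    apply mul_le_mul_of_nonneg_right _ (by norm_num [kap])
    apply mul_le_mul_of_nonneg_right h1 (by norm_num [kap])
  have h4 : r₂ ^ l' * r₂ ≤ 1 * r₂ := mul_le_mul_of_nonneg_right h2 hr₂0
  have h5 : 2 * kap * (1 * (9 * kap ^ 4) * (3 * kap / 4000) + 1 * r₂) ≤ 1 := by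
    rw [hr₂]; norm_num [kap]
  have h6 : 0 ≤ 2 * kap := by norm_num [kap]
  calc _ ≤ 2 * kap * (1 * (9 * kap ^ 4) * (3 * kap / 4000) + 1 * r₂) :=
        mul_le_mul_of_nonneg_left (add_le_add h3 h4) h6
    _ ≤ 1 := h5

section assembly

variable {f : Sym2 Ω → ℝ} {E : Finset (Sym2 V)} {Δ : ℕ} {col : V → Bool} {ε : ℝ}

/-- The sum over non-main polymers charged to a cherry. -/
lemma charge_cherry (h : Hyp f E Δ col ε) (hε : ε = 1 / (1000 * (Δ : ℝ)))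
    (μ : Finset (Sym2 V)) (hμ : μ ∈ M2 E) :
    (4 / 3) * ∑ γ ∈ NM E, (if μ ⊆ γ then X2 kap 4 ε (w2 f) γ else 0) ≤ ell kap f μ := by
  have hΔ := h.pos
  have hΔ' : (0 : ℝ) < Δ := by exact_mod_cast hΔ
  obtain ⟨hμp, hμ2⟩ := Finset.mem_filter.1 hμ
  obtain ⟨hμE, hμne, hμconn⟩ := mem_polys.1 hμp
  have hno : ∀ e ∈ μ, ¬ e.IsDiag := fun e he => h.nodiag e (hμE he)
  have hw := w2_nonneg f
  have hκ := kap_pos
  have hκ1 := kap_one
  have hε0 := h.hε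
  -- the value of `ell`
  have hell : ell kap f μ = (2 / 3) * w2 f * (kap ^ (vset μ).card)⁻¹ := by
    have hm : isMain μ := Or.inl hμ2
    unfold ell
    rw [if_pos hm, tt_card_two f hno hμconn hμ2]
  have hv := vset_card_two hno hμconn hμ2
  set σ : ℝ := 12 * kap / 1000 with hσ
  have hσ0 : 0 ≤ σ := by rw [hσ]; norm_num [kap]
  have hσ1 : σ ≤ 1 := by rw [hσ]; norm_num [kap]
  have hstep : kap * 4 * ε = σ * (1 / (3 * (Δ : ℝ))) := by
    rw [hε, hσ]; field_simp; ring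
  have hbound : ∑ γ ∈ NM E, (if μ ⊆ γ then X2 kap 4 ε (w2 f) γ else 0) ≤
      kap ^ 3 * w2 f * ∑ γ ∈ E.powerset.filter (fun γ => μ ⊆ γ ∧ Conn γ ∧ γ ≠ μ),
        (σ * (1 / (3 * (Δ : ℝ)))) ^ (γ \ μ).card := by
    rw [← Finset.sum_filter, Finset.mul_sum]
    have hsub : (NM E).filter (fun γ => μ ⊆ γ) ⊆
        E.powerset.filter (fun γ => μ ⊆ γ ∧ Conn γ ∧ γ ≠ μ) := by
      intro γ hγ
      simp only [Finset.mem_filter, NM, mem_polys, Finset.mem_powerset] at hγ ⊢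
      refine ⟨hγ.1.1.1, hγ.2, hγ.1.1.2.2, ?_⟩
      rintro rfl
      exact hγ.1.2 (Or.inl hμ2)
    refine le_trans (le_of_eq ?_) (Finset.sum_le_sum_of_subset_of_nonneg hsub
      (fun γ _ _ => by positivity))
    apply Finset.sum_congr rfl
    intro γ hγ
    simp only [Finset.mem_filter] at hγ
    have hc' := Finset.card_sdiff_add_card_eq_card hγ.2
    rw [hμ2] at hc'
    unfold X2
    rw [← hstep]
    have e1 : γ.card + 1 = (γ \ μ).card + 3 := by omega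
    have e2 : γ.card - 2 = (γ \ μ).card := by omega
    rw [e1, e2, pow_add, mul_pow, mul_pow]
    ring
  have hcount := count_strict E Δ hΔ h.deg σ hσ0 hσ1 μ hμE hμne
  have h3pow : (3 : ℝ) ^ (vset μ).card ≤ 3 ^ 3 :=
    pow_le_pow_right₀ (by norm_num) hv
  have hκpow : (kap ^ 3)⁻¹ ≤ (kap ^ (vset μ).card)⁻¹ := by
    apply inv_anti₀ (by positivity)
    exact pow_le_pow_right₀ hκ1 hv
  have hnum : (4 / 3) * (kap ^ 3 * (σ * 3 ^ 3)) ≤ (2 / 3) * (kap ^ 3)⁻¹ := by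
    rw [hσ]; norm_num [kap]
  rw [hell]
  calc (4 / 3) * ∑ γ ∈ NM E, (if μ ⊆ γ then X2 kap 4 ε (w2 f) γ else 0)
      ≤ (4 / 3) * (kap ^ 3 * w2 f * (σ * 3 ^ 3)) := by
        apply mul_le_mul_of_nonneg_left _ (by norm_num)
        refine hbound.trans ?_
        apply mul_le_mul_of_nonneg_left _ (by positivity)
        exact hcount.trans (mul_le_mul_of_nonneg_left h3pow hσ0)
    _ = w2 f * ((4 / 3) * (kap ^ 3 * (σ * 3 ^ 3))) := by ring
    _ ≤ w2 f * ((2 / 3) * (kap ^ 3)⁻¹) := mul_le_mul_of_nonneg_left hnum hw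
    _ ≤ w2 f * ((2 / 3) * (kap ^ (vset μ).card)⁻¹) := by
        apply mul_le_mul_of_nonneg_left _ hw
        apply mul_le_mul_of_nonneg_left hκpow (by norm_num)
    _ = (2 / 3) * w2 f * (kap ^ (vset μ).card)⁻¹ := by ring

/-- The sum over non-main polymers charged to a cycle. -/
lemma charge_cycle (h : Hyp f E Δ col ε) (hε : ε = 1 / (1000 * (Δ : ℝ)))
    (C : Finset (Sym2 V)) (hC : C ∈ MC E) :
    (4 / 3) * ∑ γ ∈ NM E, (if C ⊆ γ then XC kap 4 ε f γ C else 0) ≤ ell kap f C := by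
  have hΔ := h.pos
  have hΔ' : (0 : ℝ) < Δ := by exact_mod_cast hΔ
  obtain ⟨hCp, hcs⟩ := Finset.mem_filter.1 hC
  obtain ⟨hCE, hCne, hCconn⟩ := mem_polys.1 hCp
  obtain ⟨n, c, hc, hCeq⟩ := hcs
  subst hCeq
  set C := cycEdges n c with hCdef
  have hκ := kap_pos
  have hκ1 := kap_one
  have hε0 := h.hε
  have hn3 := hc.three_le
  have hev : Even n := hc.even col (fun a b hab => h.proper a b (hCE hab))
  obtain ⟨l, hl⟩ := hev
  have hnl : n = 2 * l := by omega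
  have hl2 : 2 ≤ l := by omega
  have hT0 : 0 ≤ tt f C := by
    rw [hCdef, tt_cycEdges f hc.three_le hc.closed hc.inj]
    exact trc_nonneg f n ⟨l, hl⟩ (by omega)
  have hCcard : C.card = n := card_cycEdges hc.three_le hc.closed hc.inj
  have hv : (vset C).card ≤ n := vset_cycEdges_card (by omega) hc.closed
  have hell : ell kap f C = (2 / 3) * tt f C * (kap ^ (vset C).card)⁻¹ := by
    have hm : isMain C := Or.inr ⟨n, c, hc, rfl⟩
    unfold ell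
    rw [if_pos hm]
  set σ₃ : ℝ := 3 * kap / 4000 with hσ₃
  set σ₄ : ℝ := 3 * kap / 1000 with hσ₄
  have hσ₃0 : 0 ≤ σ₃ := by rw [hσ₃]; norm_num [kap]
  have hσ₃1 : σ₃ ≤ 1 := by rw [hσ₃]; norm_num [kap]
  have hσ₄0 : 0 ≤ σ₄ := by rw [hσ₄]; norm_num [kap]
  have hσ₄1 : σ₄ ≤ 1 := by rw [hσ₄]; norm_num [kap]
  have hstep₃ : kap * (4 : ℝ)⁻¹ * ε = σ₃ * (1 / (3 * (Δ : ℝ))) := by
    rw [hε, hσ₃]; field_simp; ring
  have hstep₄ : kap * ε = σ₄ * (1 / (3 * (Δ : ℝ))) := by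
    rw [hε, hσ₄]; field_simp
  set η : ℝ := 1 / (3 * (Δ : ℝ)) with hη
  have hη0 : 0 ≤ η := by positivity
  set Fam := E.powerset.filter (fun γ => C ⊆ γ ∧ Conn γ ∧ γ ≠ C) with hFam
  -- termwise bound
  have hterm : ∀ γ ∈ (NM E).filter (fun γ => C ⊆ γ), XC kap 4 ε f γ C ≤
      tt f C * (kap ^ (n + 1) * ((4 : ℝ)⁻¹) ^ (n - 2) * (σ₃ * η) ^ (γ \ C).card +
        kap ^ (n + 1) * σ₄ ^ l * η ^ (γ \ C).card) := by
    intro γ hγ
    simp only [Finset.mem_filter] at hγ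
    have hc' := Finset.card_sdiff_add_card_eq_card hγ.2
    rw [hCcard] at hc'
    set j := (γ \ C).card with hj
    have e1 : γ.card + 1 = j + (n + 1) := by omega
    have e2 : γ.card - 2 = (n - 2) + j := by omega
    unfold XC
    rw [hCcard, e1, e2]
    have hA : kap ^ (j + (n + 1)) * (((4 : ℝ)⁻¹) ^ ((n - 2) + j) * ε ^ j) =
        kap ^ (n + 1) * ((4 : ℝ)⁻¹) ^ (n - 2) * (σ₃ * η) ^ j := by
      rw [← hstep₃, mul_pow, mul_pow, pow_add, pow_add]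
      ring
    have hB : kap ^ (j + (n + 1)) * (if n ≤ 2 * j then ε ^ j else 0) ≤
        kap ^ (n + 1) * σ₄ ^ l * η ^ j := by
      split_ifs with hcond
      · have h1 : σ₄ ^ j ≤ σ₄ ^ l := pow_le_pow_of_le_one hσ₄0 hσ₄1 (by omega)
        calc kap ^ (j + (n + 1)) * ε ^ j = kap ^ (n + 1) * (kap * ε) ^ j := by
              rw [mul_pow, pow_add]; ring
          _ = kap ^ (n + 1) * (σ₄ ^ j * η ^ j) := by rw [hstep₄, mul_pow]
          _ ≤ kap ^ (n + 1) * (σ₄ ^ l * η ^ j) := by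
              apply mul_le_mul_of_nonneg_left _ (by positivity)
              exact mul_le_mul_of_nonneg_right h1 (by positivity)
          _ = _ := by ring
      · rw [mul_zero]; positivity
    calc kap ^ (j + (n + 1)) * (((4 : ℝ)⁻¹) ^ ((n - 2) + j) * ε ^ j +
          (if n ≤ 2 * j then ε ^ j else 0)) * tt f C
        = tt f C * (kap ^ (j + (n + 1)) * (((4 : ℝ)⁻¹) ^ ((n - 2) + j) * ε ^ j) +
            kap ^ (j + (n + 1)) * (if n ≤ 2 * j then ε ^ j else 0)) := by ring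
      _ ≤ _ := by
          apply mul_le_mul_of_nonneg_left _ hT0
          rw [hA]
          linarith
  have hsub : (NM E).filter (fun γ => C ⊆ γ) ⊆ Fam := by
    intro γ hγ
    simp only [hFam, Finset.mem_filter, NM, mem_polys, Finset.mem_powerset] at hγ ⊢
    refine ⟨hγ.1.1.1, hγ.2, hγ.1.1.2.2, ?_⟩
    intro hγC
    apply hγ.1.2
    rw [hγC]
    exact Or.inr ⟨n, c, hc, rfl⟩
  have hFam2 : Fam ⊆ E.powerset.filter (fun γ => C ⊆ γ ∧ Conn γ) := by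
    intro γ hγ
    simp only [hFam, Finset.mem_filter, Finset.mem_powerset] at hγ ⊢
    exact ⟨hγ.1, hγ.2.1, hγ.2.2.1⟩
  have hc1 := count_strict E Δ hΔ h.deg σ₃ hσ₃0 hσ₃1 C hCE hCne
  have hc2 : ∑ γ ∈ Fam, η ^ (γ \ C).card ≤ 3 ^ (vset C).card :=
    (Finset.sum_le_sum_of_subset_of_nonneg hFam2 (fun _ _ _ => by positivity)).trans
      (count_all E Δ hΔ h.deg C hCE hCne)
  have h3pow : (3 : ℝ) ^ (vset C).card ≤ 3 ^ n := pow_le_pow_right₀ (by norm_num) hv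
  have hκpow : (kap ^ n)⁻¹ ≤ (kap ^ (vset C).card)⁻¹ := by
    apply inv_anti₀ (by positivity)
    exact pow_le_pow_right₀ hκ1 hv
  have hsum : ∑ γ ∈ NM E, (if C ⊆ γ then XC kap 4 ε f γ C else 0) ≤
      tt f C * (kap ^ (n + 1) * 3 ^ n * (((4 : ℝ)⁻¹) ^ (n - 2) * σ₃ + σ₄ ^ l)) := by
    rw [← Finset.sum_filter]
    calc _ ≤ ∑ γ ∈ (NM E).filter (fun γ => C ⊆ γ), tt f C *
          (kap ^ (n + 1) * ((4 : ℝ)⁻¹) ^ (n - 2) * (σ₃ * η) ^ (γ \ C).card +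
            kap ^ (n + 1) * σ₄ ^ l * η ^ (γ \ C).card) := Finset.sum_le_sum hterm
      _ ≤ ∑ γ ∈ Fam, tt f C *
          (kap ^ (n + 1) * ((4 : ℝ)⁻¹) ^ (n - 2) * (σ₃ * η) ^ (γ \ C).card +
            kap ^ (n + 1) * σ₄ ^ l * η ^ (γ \ C).card) :=
          Finset.sum_le_sum_of_subset_of_nonneg hsub (fun _ _ _ => by positivity)
      _ = tt f C * (kap ^ (n + 1) * ((4 : ℝ)⁻¹) ^ (n - 2) * ∑ γ ∈ Fam, (σ₃ * η) ^ (γ \ C).card +
            kap ^ (n + 1) * σ₄ ^ l * ∑ γ ∈ Fam, η ^ (γ \ C).card) := by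
          rw [← Finset.mul_sum, Finset.sum_add_distrib, Finset.mul_sum, Finset.mul_sum]
      _ ≤ tt f C * (kap ^ (n + 1) * ((4 : ℝ)⁻¹) ^ (n - 2) * (σ₃ * 3 ^ n) +
            kap ^ (n + 1) * σ₄ ^ l * 3 ^ n) := by
          apply mul_le_mul_of_nonneg_left _ hT0
          apply add_le_add
          · apply mul_le_mul_of_nonneg_left _ (by positivity)
            exact hc1.trans (mul_le_mul_of_nonneg_left h3pow hσ₃0)
          · apply mul_le_mul_of_nonneg_left _ (by positivity)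
            exact hc2.trans h3pow
      _ = _ := by ring
  have hnum := numeric_cycle l hl2
  have hnum2 : (4 / 3) * (kap ^ (n + 1) * 3 ^ n * (((4 : ℝ)⁻¹) ^ (n - 2) * σ₃ + σ₄ ^ l)) ≤
      (2 / 3) * (kap ^ n)⁻¹ := by
    have hκn : 0 < kap ^ n := by positivity
    have e1 : 2 * kap ^ (4 * l + 1) * 9 ^ l * (((4 : ℝ)⁻¹) ^ (2 * l - 2) * σ₃ + σ₄ ^ l) =
        2 * (kap ^ n * kap ^ (n + 1) * 3 ^ n * (((4 : ℝ)⁻¹) ^ (n - 2) * σ₃ + σ₄ ^ l)) := by
      rw [hnl]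
      have e2 : (9 : ℝ) ^ l = 3 ^ (2 * l) := by
        rw [pow_mul]; norm_num
      have e3 : kap ^ (4 * l + 1) = kap ^ (2 * l) * kap ^ (2 * l + 1) := by
        rw [← pow_add]; congr 1; ring
      rw [e2, e3]
      ring
    rw [e1] at hnum
    set X : ℝ := kap ^ (n + 1) * 3 ^ n * (((4 : ℝ)⁻¹) ^ (n - 2) * σ₃ + σ₄ ^ l) with hX
    have e2 : 2 * (kap ^ n * kap ^ (n + 1) * 3 ^ n * (((4 : ℝ)⁻¹) ^ (n - 2) * σ₃ + σ₄ ^ l)) =
        2 * (kap ^ n * X) := by rw [hX]; ring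
    rw [e2] at hnum
    have e3 : (kap ^ n)⁻¹ * (kap ^ n * X) = X := by
      rw [← mul_assoc, inv_mul_cancel₀ hκn.ne', one_mul]
    have e4 : X ≤ (kap ^ n)⁻¹ * (1 / 2) := by
      rw [← e3]
      apply mul_le_mul_of_nonneg_left _ (by positivity)
      linarith
    linarith
  rw [hell]
  calc (4 / 3) * ∑ γ ∈ NM E, (if C ⊆ γ then XC kap 4 ε f γ C else 0)
      ≤ (4 / 3) * (tt f C * (kap ^ (n + 1) * 3 ^ n * (((4 : ℝ)⁻¹) ^ (n - 2) * σ₃ + σ₄ ^ l))) :=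
        mul_le_mul_of_nonneg_left hsum (by norm_num)
    _ = tt f C * ((4 / 3) * (kap ^ (n + 1) * 3 ^ n * (((4 : ℝ)⁻¹) ^ (n - 2) * σ₃ + σ₄ ^ l))) := by
        ring
    _ ≤ tt f C * ((2 / 3) * (kap ^ n)⁻¹) := mul_le_mul_of_nonneg_left hnum2 hT0
    _ ≤ tt f C * ((2 / 3) * (kap ^ (vset C).card)⁻¹) := by
        apply mul_le_mul_of_nonneg_left _ hT0
        apply mul_le_mul_of_nonneg_left hκpow (by norm_num)
    _ = (2 / 3) * tt f C * (kap ^ (vset C).card)⁻¹ := by ring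

lemma vset_singleton_card (e : Sym2 V) : (vset ({e} : Finset (Sym2 V))).card ≤ 2 := by
  induction e using Sym2.ind with
  | _ a b =>
    have : vset ({s(a, b)} : Finset (Sym2 V)) ⊆ {a, b} := by
      intro v hv
      obtain ⟨h', hh', hvh⟩ := mem_vset.1 hv
      simp only [Finset.mem_singleton] at hh'
      subst hh'
      simpa using hvh
    exact (Finset.card_le_card this).trans Finset.card_le_two

/-- The smallness of the polymer sums. -/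
lemma sum_hA (h : Hyp f E Δ col ε) (hε : ε = 1 / (1000 * (Δ : ℝ))) (U : Finset (Sym2 V))
    (hU : U ⊆ E) (e : Sym2 V) (he : e ∈ U) :
    ∑ γ ∈ explSet U {e} ∅, |tt f γ| * kap ^ (vset γ).card ≤ 3 / 16 := by
  have hΔ := h.pos
  have hΔ' : (0 : ℝ) < Δ := by exact_mod_cast hΔ
  have hκ := kap_pos
  have hκ1 := kap_one
  have hε0 := h.hε
  have hdegU : ∀ v, (U.filter (fun h => v ∈ h)).card ≤ Δ := fun v =>
    (Finset.card_le_card (Finset.filter_subset_filter _ hU)).trans (h.deg v)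
  set σ : ℝ := 3 * kap / 1000 with hσ
  have hσ0 : 0 ≤ σ := by rw [hσ]; norm_num [kap]
  have hσ1 : σ ≤ 1 := by rw [hσ]; norm_num [kap]
  set η : ℝ := 1 / (3 * (Δ : ℝ)) with hη
  have hstep : kap * ε = σ * η := by
    rw [hε, hσ, hη]; field_simp
  have hε1000 : ε ≤ 1 / 1000 := by
    rw [hε]; exact (eps_facts hΔ).1
  set Fam := U.powerset.filter (fun γ => {e} ⊆ γ ∧ Conn γ ∧ γ ≠ {e}) with hFam
  have hterm : ∀ γ ∈ explSet U {e} ∅, |tt f γ| * kap ^ (vset γ).card ≤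
      if γ ∈ Fam then ε * kap ^ 2 * (σ * η) ^ (γ \ {e}).card else 0 := by
    intro γ hγ
    obtain ⟨h1, h2, _, h4⟩ := mem_explSet.1 hγ
    have heγ : e ∈ γ := h2 (by simp)
    have hconn : Conn γ := (sconn_singleton_iff heγ).1 h4
    by_cases hγe : γ = {e}
    · have hmem : γ ∉ Fam := by
        simp [hFam, hγe]
      rw [if_neg hmem, hγe, tt_single f h.mean e (h.nodiag e (hU he))]
      simp
    · have hmem : γ ∈ Fam := by
        simp only [hFam, Finset.mem_filter, Finset.mem_powerset]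
        exact ⟨h1, h2, hconn, hγe⟩
      rw [if_pos hmem]
      have hab := abs_tt_le f ε hε0.le h.small γ
      have hv := card_vset_le hconn ⟨e, heγ⟩
      have hc := Finset.card_sdiff_add_card_eq_card h2
      rw [Finset.card_singleton] at hc
      set j := (γ \ {e}).card with hj
      have e1 : γ.card = j + 1 := hc.symm
      rw [e1] at hab hv
      have hκpow : kap ^ (vset γ).card ≤ kap ^ (j + 2) := pow_le_pow_right₀ hκ1 (by omega)
      calc |tt f γ| * kap ^ (vset γ).card ≤ ε ^ (j + 1) * kap ^ (j + 2) :=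
            mul_le_mul hab hκpow (by positivity) (by positivity)
        _ = ε * kap ^ 2 * (kap * ε) ^ j := by rw [mul_pow, pow_add, pow_add]; ring
        _ = ε * kap ^ 2 * (σ * η) ^ j := by rw [hstep]
  have hcount := count_strict U Δ hΔ hdegU σ hσ0 hσ1 {e} (by simpa using he) ⟨e, by simp⟩
  have hv2 := vset_singleton_card e
  have h3pow : (3 : ℝ) ^ (vset ({e} : Finset (Sym2 V))).card ≤ 3 ^ 2 :=
    pow_le_pow_right₀ (by norm_num) hv2
  calc _ ≤ ∑ γ ∈ explSet U {e} ∅, (if γ ∈ Fam then ε * kap ^ 2 * (σ * η) ^ (γ \ {e}).card else 0) :=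
        Finset.sum_le_sum hterm
    _ ≤ ∑ γ ∈ Fam, ε * kap ^ 2 * (σ * η) ^ (γ \ {e}).card := by
        rw [← Finset.sum_filter]
        apply Finset.sum_le_sum_of_subset_of_nonneg
        · intro γ hγ
          exact (Finset.mem_filter.1 hγ).2
        · intro _ _ _
          positivity
    _ = ε * kap ^ 2 * ∑ γ ∈ Fam, (σ * η) ^ (γ \ {e}).card := by rw [Finset.mul_sum]
    _ ≤ ε * kap ^ 2 * (σ * 3 ^ 2) := by
        apply mul_le_mul_of_nonneg_left _ (by positivity)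
        exact hcount.trans (mul_le_mul_of_nonneg_left h3pow hσ0)
    _ ≤ (1 / 1000) * kap ^ 2 * (σ * 3 ^ 2) := by
        apply mul_le_mul_of_nonneg_right _ (by positivity)
        exact mul_le_mul_of_nonneg_right hε1000 (by positivity)
    _ ≤ 3 / 16 := by
        rw [hσ]; norm_num [kap]

/-- Main polymers have nonnegative weight. -/
lemma sum_hmain (h : Hyp f E Δ col ε) (γ : Finset (Sym2 V)) (hγ : γ ∈ polys E)
    (hm : isMain γ) : 0 ≤ tt f γ := by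
  obtain ⟨hγE, hne, hconn⟩ := mem_polys.1 hγ
  rcases hm with h2 | ⟨n, c, hc, hCeq⟩
  · rw [tt_card_two f (fun e he => h.nodiag e (hγE he)) hconn h2]
    exact w2_nonneg f
  · subst hCeq
    have hev : Even n := hc.even col (fun a b hab => h.proper a b (hγE hab))
    rw [tt_cycEdges f hc.three_le hc.closed hc.inj]
    have := hc.three_le
    exact trc_nonneg f n hev (by omega)

/-- The polymer inequality. -/
lemma polymer_ineq (h : Hyp f E Δ col ε) (hε : ε = 1 / (1000 * (Δ : ℝ))) :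
    0 ≤ ∑ γ ∈ polys E, ell kap f γ := by
  have hsplit : (polys E).filter isMain = M2 E ∪ MC E := by
    ext γ
    simp only [Finset.mem_filter, Finset.mem_union, M2, MC, isMain]
    tauto
  have hdisj : Disjoint (M2 E) (MC E) := by
    rw [Finset.disjoint_left]
    intro γ h1 h2
    have h3 := (Finset.mem_filter.1 h1).2
    obtain ⟨n, c, hc, hCeq⟩ := (Finset.mem_filter.1 h2).2
    have h4 := card_cycEdges hc.three_le hc.closed hc.inj
    rw [hCeq] at h4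
    have := hc.three_le
    omega
  have hNMell : ∑ γ ∈ NM E, ell kap f γ =
      -((4 / 3) * ∑ γ ∈ NM E, |tt f γ| * kap ^ (vset γ).card) := by
    rw [Finset.mul_sum, ← Finset.sum_neg_distrib]
    apply Finset.sum_congr rfl
    intro γ hγ
    have hnm := (Finset.mem_filter.1 hγ).2
    unfold ell
    rw [if_neg hnm]
    ring
  have hbound : ∑ γ ∈ NM E, |tt f γ| * kap ^ (vset γ).card ≤
      ∑ μ ∈ M2 E, ∑ γ ∈ NM E, (if μ ⊆ γ then X2 kap 4 ε (w2 f) γ else 0) +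
      ∑ C ∈ MC E, ∑ γ ∈ NM E, (if C ⊆ γ then XC kap 4 ε f γ C else 0) := by
    rw [Finset.sum_comm (s := M2 E), Finset.sum_comm (s := MC E), ← Finset.sum_add_distrib]
    apply Finset.sum_le_sum
    intro γ hγ
    obtain ⟨h1, h2⟩ := Finset.mem_filter.1 hγ
    exact nm_bound h kap 4 kap_one (by norm_num) h1 h2
  have h1 : (4 / 3) * ∑ γ ∈ NM E, |tt f γ| * kap ^ (vset γ).card ≤
      ∑ μ ∈ M2 E, ell kap f μ + ∑ C ∈ MC E, ell kap f C := by
    calc _ ≤ (4 / 3) * (∑ μ ∈ M2 E, ∑ γ ∈ NM E, (if μ ⊆ γ then X2 kap 4 ε (w2 f) γ else 0) +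
          ∑ C ∈ MC E, ∑ γ ∈ NM E, (if C ⊆ γ then XC kap 4 ε f γ C else 0)) :=
          mul_le_mul_of_nonneg_left hbound (by norm_num)
      _ = ∑ μ ∈ M2 E, (4 / 3) * ∑ γ ∈ NM E, (if μ ⊆ γ then X2 kap 4 ε (w2 f) γ else 0) +
          ∑ C ∈ MC E, (4 / 3) * ∑ γ ∈ NM E, (if C ⊆ γ then XC kap 4 ε f γ C else 0) := by
          rw [mul_add, Finset.mul_sum, Finset.mul_sum]
      _ ≤ _ := by
          apply add_le_add
          · exact Finset.sum_le_sum (fun μ hμ => charge_cherry h hε μ hμ)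
          · exact Finset.sum_le_sum (fun C hC => charge_cycle h hε C hC)
  rw [← Finset.sum_filter_add_sum_filter_not (polys E) isMain, hsplit,
    Finset.sum_union hdisj]
  have hNM' : (polys E).filter (fun γ => ¬ isMain γ) = NM E := rfl
  rw [hNM', hNMell]
  linarith

/-- The local inequality for a perturbation `f` with mean zero. -/
lemma main_f (h : Hyp f E Δ col ε) (hε : ε = 1 / (1000 * (Δ : ℝ))) : 1 ≤ ZZ f E := by
  have hΔ := h.pos
  have h1 := global_lower f ε kap h.hε1 h.small Δ kap_one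
    (by rw [hε]; exact kap_lower hΔ) (by rw [hε]; exact kap_upper hΔ) E h.deg
    (fun γ hγ hm => sum_hmain h γ hγ hm)
    (fun U hU e he => sum_hA h hε U hU e he)
  have h2 := polymer_ineq h hε
  have h3 : (1 : ℝ) ≤ Real.exp (∑ γ ∈ polys E, ell kap f γ) := Real.one_le_exp h2
  linarith

end assembly

end

end Vale.Agent.Lib.P050
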