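import Vale.Agent.Lib.P050.Leaf

set_option linter.unusedSectionVars false
set_option linter.unusedVariables false

namespace Vale.Agent.Lib.P050

noncomputable section

open Finset Function
open scoped BigOperators

variable {V : Type*} [Fintype V] [DecidableEq V]

/-- A path of length `k` with edges in `γ`. -/
structure IsPth (γ : Finset (Sym2 V)) (k : ℕ) (p : ℕ → V) : Prop where
  inj : ∀ i ≤ k, ∀ j ≤ k, p i = p j → i = j
  mem : ∀ i < k, s(p i, p (i + 1)) ∈ γ

/-- The edge `g` meets the vertex set of `Y`. -/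
def Touches (g : Sym2 V) (Y : Finset (Sym2 V)) : Prop := ∃ v ∈ g, ∃ h ∈ Y, v ∈ h

/-- Connectivity of an edge set. -/
def Conn (γ : Finset (Sym2 V)) : Prop :=
  ∀ Y ⊆ γ, Y.Nonempty → Y ≠ γ → ∃ g ∈ γ \ Y, Touches g Y

lemma IsPth.length_lt {γ : Finset (Sym2 V)} {k : ℕ} {p : ℕ → V} (h : IsPth γ k p) :
    k < Fintype.card V := by
  have : (range (k + 1)).card ≤ (univ : Finset V).card := by
    apply Finset.card_le_card_of_injOn p (fun _ _ => Finset.mem_univ _)
    intro i hi j hj hij
    simp only [coe_range, Set.mem_Iio] at hi hj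
    exact h.inj i (by omega) j (by omega) hij
  simpa using this

/-- Reverse of a path. -/
lemma IsPth.reverse {γ : Finset (Sym2 V)} {k : ℕ} {p : ℕ → V} (h : IsPth γ k p) :
    IsPth γ k (fun t => p (k - t)) := by
  constructor
  · intro i hi j hj hij
    have := h.inj _ (Nat.sub_le k i) _ (Nat.sub_le k j) hij
    omega
  · intro i hi
    have := h.mem (k - (i + 1)) (by omega)
    have e : k - (i + 1) + 1 = k - i := by omega
    rw [e] at this
    rw [Sym2.eq_swap]
    exact this

/-- Subpath. -/
lemma IsPth.sub {γ : Finset (Sym2 V)} {k : ℕ} {p : ℕ → V} (h : IsPth γ k p) (j k' : ℕ)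
    (hjk : j + k' ≤ k) : IsPth γ k' (fun t => p (j + t)) := by
  constructor
  · intro a ha b hb hab
    have := h.inj _ (by omega : j + a ≤ k) _ (by omega : j + b ≤ k) hab
    omega
  · intro a ha
    have := h.mem (j + a) (by omega)
    exact this

/-- Two paths glued into a cycle. -/
lemma cyc_of_two_paths {γ : Finset (Sym2 V)} {k m : ℕ} {p r : ℕ → V} (hp : IsPth γ k p)
    (hr : IsPth γ m r) (hclose : r m = p 0) (hedge : s(p k, r 0) ∈ γ)
    (hdisj : ∀ t ≤ k, ∀ t' < m, p t ≠ r t') (h3 : 3 ≤ k + 1 + m) :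
    IsCyc γ (k + 1 + m) (fun t => if t ≤ k then p t else r (t - k - 1)) := by
  constructor
  · exact h3
  · have e : ¬ (k + 1 + m ≤ k) := by omega
    simp only [e, if_false, Nat.zero_le, if_true]
    have : k + 1 + m - k - 1 = m := by omega
    rw [this, hclose]
  · intro i hi j hj hij
    by_cases h1 : i ≤ k <;> by_cases h2 : j ≤ k
    · simp only [h1, h2, if_true] at hij
      exact hp.inj i h1 j h2 hij
    · simp only [h1, h2, if_true, if_false] at hij
      exact absurd hij (hdisj i h1 (j - k - 1) (by omega))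
    · simp only [h1, h2, if_true, if_false] at hij
      exact absurd hij.symm (hdisj j h2 (i - k - 1) (by omega))
    · simp only [h1, h2, if_false] at hij
      have := hr.inj _ (by omega : i - k - 1 ≤ m) _ (by omega : j - k - 1 ≤ m) hij
      omega
  · intro i hi
    by_cases h1 : i < k
    · have e1 : i ≤ k := by omega
      have e2 : i + 1 ≤ k := by omega
      simp only [e1, e2, if_true]
      exact hp.mem i h1
    · by_cases h2 : i = k
      · subst h2
        have e2 : ¬ (i + 1 ≤ i) := by omega
        simp only [le_refl, if_true, e2, if_false]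
        have : i + 1 - i - 1 = 0 := by omega
        rw [this]
        exact hedge
      · have e1 : ¬ (i ≤ k) := by omega
        have e2 : ¬ (i + 1 ≤ k) := by omega
        simp only [e1, e2, if_false]
        have : i + 1 - k - 1 = (i - k - 1) + 1 := by omega
        rw [this]
        exact hr.mem _ (by omega)

/-- Closing a path by an edge gives a cycle. -/
lemma cyc_of_path {γ : Finset (Sym2 V)} {k : ℕ} {p : ℕ → V} (hp : IsPth γ k p)
    (hedge : s(p k, p 0) ∈ γ) (h3 : 2 ≤ k) :
    ∃ c, IsCyc γ (k + 1) c := by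
  have hr : IsPth γ 0 (fun _ => p 0) := ⟨by intro i hi j hj _; omega, by intro i hi; omega⟩
  exact ⟨_, cyc_of_two_paths hp hr rfl hedge (by intro t _ t' ht'; omega) (by omega)⟩

/-- Minimality of a cycle. -/
def MinCyc (γ : Finset (Sym2 V)) (n : ℕ) (c : ℕ → V) : Prop :=
  IsCyc γ n c ∧ ∀ m c', IsCyc γ m c' → n ≤ m

lemma exists_minCyc {γ : Finset (Sym2 V)} (h : ∃ n c, IsCyc γ n c) : ∃ n c, MinCyc γ n c := by
  classical
  have hc := Nat.find_spec h
  obtain ⟨c, hc⟩ := hc
  refine ⟨_, c, hc, ?_⟩
  intro m c' hc'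
  exact Nat.find_min' h ⟨c', hc'⟩

lemma IsCyc.path {γ : Finset (Sym2 V)} {n : ℕ} {c : ℕ → V} (h : IsCyc γ n c) (i k : ℕ)
    (hik : i + k < n) : IsPth γ k (fun t => c (i + t)) := by
  constructor
  · intro a ha b hb hab
    have := h.inj _ (by omega : i + a < n) _ (by omega : i + b < n) hab
    omega
  · intro a ha
    exact h.mem (i + a) (by omega)

/-- Minimal cycles are induced. -/
lemma MinCyc.induced {γ : Finset (Sym2 V)} {n : ℕ} {c : ℕ → V} (h : MinCyc γ n c)
    (i j : ℕ) (hi : i < n) (hj : j < n) (hij : i ≠ j) (he : s(c i, c j) ∈ γ) :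
    s(c i, c j) ∈ cycEdges n c := by
  obtain ⟨hc, hmin⟩ := h
  wlog hlt : i < j generalizing i j
  · have := this j i hj hi hij.symm (by rw [Sym2.eq_swap]; exact he) (by omega)
    rw [Sym2.eq_swap]; exact this
  by_cases h1 : j = i + 1
  · subst h1
    simp only [cycEdges, mem_image, mem_range]
    exact ⟨i, hi, rfl⟩
  by_cases h2 : i = 0 ∧ j + 1 = n
  · obtain ⟨rfl, h2⟩ := h2
    simp only [cycEdges, mem_image, mem_range]
    refine ⟨j, by omega, ?_⟩
    rw [h2, hc.closed, Sym2.eq_swap]
  -- a shorter cycle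
  exfalso
  have hp := hc.path i (j - i) (by omega)
  have hedge : s(c (i + (j - i)), c (i + 0)) ∈ γ := by
    have e1 : i + (j - i) = j := by omega
    rw [e1, add_zero, Sym2.eq_swap]
    exact he
  obtain ⟨c', hc'⟩ := cyc_of_path hp hedge (by omega)
  have := hmin _ _ hc'
  omega

/-- Parity of a cycle in a properly coloured edge set. -/
lemma IsCyc.even {γ : Finset (Sym2 V)} {n : ℕ} {c : ℕ → V} (h : IsCyc γ n c)
    (col : V → Bool) (hcol : ∀ a b, s(a, b) ∈ γ → col a ≠ col b) : Even n := by
  have key : ∀ i ≤ n, (col (c i) = col (c 0) ↔ Even i) := by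
    intro i
    induction i with
    | zero => simp
    | succ i ih =>
      intro hi
      have h1 := ih (by omega)
      have h2 := hcol _ _ (h.mem i (by omega))
      rw [Nat.even_add_one, ← h1]
      constructor
      · intro h3 h4
        exact h2 (h4.trans h3.symm)
      · intro h3
        cases hh : col (c i) <;> cases hh' : col (c (i + 1)) <;> cases hh'' : col (c 0) <;>
          simp_all
  have := (key n le_rfl).1 (by rw [h.closed])
  exact this

/-- Extending a path by one vertex. -/
lemma IsPth.extend {γ : Finset (Sym2 V)} {k : ℕ} {p : ℕ → V} (h : IsPth γ k p) (w : V)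
    (hw : ∀ j ≤ k, p j ≠ w) (he : s(p k, w) ∈ γ) :
    IsPth γ (k + 1) (fun t => if t ≤ k then p t else w) := by
  constructor
  · intro i hi j hj hij
    by_cases h1 : i ≤ k <;> by_cases h2 : j ≤ k
    · simp only [h1, h2, if_true] at hij
      exact h.inj i h1 j h2 hij
    · simp only [h1, h2, if_true, if_false] at hij
      exact absurd hij (hw i h1)
    · simp only [h1, h2, if_true, if_false] at hij
      exact absurd hij.symm (hw j h2)
    · omega
  · intro i hi
    by_cases h1 : i < k
    · have e1 : i ≤ k := by omega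
      have e2 : i + 1 ≤ k := by omega
      simp only [e1, e2, if_true]
      exact h.mem i h1
    · have h2 : i = k := by omega
      subst h2
      have e2 : ¬ (i + 1 ≤ i) := by omega
      simp only [le_refl, if_true, e2, if_false]
      exact he

/-- Existence of a longest member of a bounded nonempty family. -/
lemma exists_max_of_bdd (P : ℕ → Prop) (B : ℕ) (hB : ∀ k, P k → k ≤ B) (k₀ : ℕ) (h₀ : P k₀) :
    ∃ k, P k ∧ ∀ k', P k' → k' ≤ k := by
  classical
  refine ⟨Nat.findGreatest P B, Nat.findGreatest_spec (hB k₀ h₀) h₀, ?_⟩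
  intro k' hk'
  exact Nat.le_findGreatest (hB k' hk') hk'

lemma endpoint_analysis {γ : Finset (Sym2 V)} (hno : ∀ e ∈ γ, ¬ e.IsDiag) {k : ℕ} {p : ℕ → V}
    (hp : IsPth γ k p) (hmax : ∀ p', ¬ IsPth γ (k + 1) p') (hk : 1 ≤ k)
    (hnocyc : ¬ ∃ n c, IsCyc γ n c) :
    ∀ e ∈ γ, p k ∈ e → e = s(p k, p (k - 1)) := by
  intro e he hpk
  obtain ⟨w, rfl⟩ := hpk
  have hne : p k ≠ w := by
    intro h
    apply hno _ he
    simp [h]
  by_cases hw : ∃ j ≤ k, p j = w
  · obtain ⟨j, hj, rfl⟩ := hw
    have hjk : j ≠ k := fun h => hne (by rw [h])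
    by_cases h1 : j + 1 = k
    · subst h1; simp
    · exfalso
      apply hnocyc
      have hsub := hp.sub j (k - j) (by omega)
      have hedge : s(p (j + (k - j)), p (j + 0)) ∈ γ := by
        have e1 : j + (k - j) = k := by omega
        rw [e1, add_zero]
        exact he
      obtain ⟨c, hc⟩ := cyc_of_path hsub hedge (by omega)
      exact ⟨_, c, hc⟩
  · exfalso
    have hw' : ∀ j ≤ k, p j ≠ w := fun j hj h => hw ⟨j, hj, h⟩
    exact hmax _ (hp.extend w hw' he)

/-- A connected edge set with at least two edges either has a cycle or two distinct pendant edges. -/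
lemma cycle_or_leaves (γ : Finset (Sym2 V)) (hno : ∀ e ∈ γ, ¬ e.IsDiag) (hconn : Conn γ)
    (h2 : 2 ≤ γ.card) :
    (∃ n c, IsCyc γ n c) ∨ ∃ l₁ u₁ l₂ u₂ : V, s(l₁, u₁) ∈ γ ∧ s(l₂, u₂) ∈ γ ∧ l₁ ≠ u₁ ∧ l₂ ≠ u₂ ∧
      s(l₁, u₁) ≠ s(l₂, u₂) ∧ (∀ e ∈ γ, l₁ ∈ e → e = s(l₁, u₁)) ∧
      (∀ e ∈ γ, l₂ ∈ e → e = s(l₂, u₂)) := by
  classical
  by_cases hcyc : ∃ n c, IsCyc γ n c
  · exact Or.inl hcyc
  right
  -- a first edge
  have hne : γ.Nonempty := Finset.card_pos.1 (by omega)
  obtain ⟨e₀, he₀⟩ := hne
  induction e₀ using Sym2.ind with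
  | _ a b =>
  have hab : a ≠ b := fun h => hno _ he₀ (by simp [h])
  have hp₀ : IsPth γ 0 (fun _ => a) := ⟨by intro i hi j hj _; omega, by intro i hi; omega⟩
  have hp₁ := hp₀.extend b (fun j _ => hab) he₀
  obtain ⟨k, ⟨p, hp⟩, hmax⟩ := exists_max_of_bdd (fun k => ∃ p, IsPth γ k p) (Fintype.card V)
    (fun k ⟨p, hp⟩ => hp.length_lt.le) 1 ⟨_, hp₁⟩
  have hk : 1 ≤ k := hmax 1 ⟨_, hp₁⟩
  have hmax' : ∀ p', ¬ IsPth γ (k + 1) p' := fun p' hp' => by
    have := hmax (k + 1) ⟨p', hp'⟩
    omega
  have h1 := endpoint_analysis hno hp hmax' hk hcyc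
  have h2' := endpoint_analysis hno hp.reverse hmax' hk hcyc
  simp only [Nat.sub_self] at h2'
  have e3 : k - (k - 1) = 1 := by omega
  rw [e3] at h2'
  have hmem1 : s(p (k - 1), p (k - 1 + 1)) ∈ γ := hp.mem (k - 1) (by omega)
  have e4 : k - 1 + 1 = k := by omega
  rw [e4, Sym2.eq_swap] at hmem1
  have hmem2 : s(p 0, p (0 + 1)) ∈ γ := hp.mem 0 (by omega)
  have hne1 : p k ≠ p (k - 1) := fun h => by
    have := hp.inj _ le_rfl _ (by omega) h
    omega
  have hne2 : p 0 ≠ p (0 + 1) := fun h => by
    have := hp.inj _ (by omega) _ (by omega) h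
    omega
  refine ⟨p k, p (k - 1), p 0, p (0 + 1), hmem1, hmem2, hne1, hne2, ?_, h1, ?_⟩
  · intro heq
    -- then `k = 1` and `γ` would be a single edge
    have hk1 : k = 1 := by
      simp only [Sym2.eq_iff] at heq
      rcases heq with ⟨h3, _⟩ | ⟨h3, _⟩
      · have := hp.inj _ le_rfl _ (by omega) h3
        omega
      · have := hp.inj _ le_rfl _ (by omega) h3
        omega
    subst hk1
    have hY : ({s(p 0, p (0 + 1))} : Finset (Sym2 V)) ≠ γ := by
      intro h
      rw [← h] at h2
      simp at h2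
    obtain ⟨g, hg, v, hv, h', hh', hvh⟩ := hconn {s(p 0, p (0 + 1))}
      (by simpa using hmem2) (by simp) hY
    simp only [Finset.mem_sdiff, Finset.mem_singleton] at hg hh'
    subst hh'
    simp only [Sym2.mem_iff] at hvh
    rcases hvh with rfl | rfl
    · have := h2' g hg.1 hv
      exact hg.2 this
    · have := h1 g hg.1 hv
      simp only [Nat.sub_self] at this
      apply hg.2
      rw [this, Sym2.eq_swap]
  · intro e he hm
    exact h2' e he hm

/-- Periodic extension of a cycle. -/
def cper (n : ℕ) (c : ℕ → V) (t : ℕ) : V := c (t % n)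

lemma IsCyc.arc {γ : Finset (Sym2 V)} {n : ℕ} {c : ℕ → V} (h : IsCyc γ n c) (s' d : ℕ)
    (hd : d < n) : IsPth γ d (fun t => cper n c (s' + t)) := by
  have hn : 0 < n := by have := h.three_le; omega
  constructor
  · intro a ha b hb hab
    have h1 := h.inj _ (Nat.mod_lt (s' + a) hn) _ (Nat.mod_lt (s' + b) hn) hab
    have h2 : a ≡ b [MOD n] := Nat.ModEq.add_left_cancel' s' h1
    exact Nat.ModEq.eq_of_lt_of_lt h2 (by omega) (by omega)
  · intro t ht
    have ha : (s' + t) % n < n := Nat.mod_lt _ hn
    have e1 : (s' + (t + 1)) % n = ((s' + t) % n + 1) % n := by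
      rw [Nat.mod_add_mod]; rfl
    have e2 : c (((s' + t) % n + 1) % n) = c ((s' + t) % n + 1) := by
      by_cases h3 : (s' + t) % n + 1 = n
      · rw [h3, Nat.mod_self, h.closed]
      · rw [Nat.mod_eq_of_lt (by omega)]
    simp only [cper]
    rw [e1, e2]
    exact h.mem _ ha

lemma mem_cycVerts_of_mem_cycEdges {n : ℕ} {c : ℕ → V} (hn : 0 < n) (hcl : c n = c 0) {e : Sym2 V}
    (he : e ∈ cycEdges n c) {v : V} (hv : v ∈ e) : v ∈ cycVerts n c := by
  simp only [cycEdges, mem_image, mem_range] at he
  obtain ⟨i, hi, rfl⟩ := he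
  simp only [Sym2.mem_iff] at hv
  simp only [cycVerts, mem_image, mem_range]
  rcases hv with rfl | rfl
  · exact ⟨i, hi, rfl⟩
  · by_cases h : i + 1 = n
    · exact ⟨0, hn, by rw [h, hcl]⟩
    · exact ⟨i + 1, by omega, rfl⟩

lemma IsCyc.edges_subset {γ : Finset (Sym2 V)} {n : ℕ} {c : ℕ → V} (h : IsCyc γ n c) :
    cycEdges n c ⊆ γ := by
  intro e he
  simp only [cycEdges, mem_image, mem_range] at he
  obtain ⟨i, hi, rfl⟩ := he
  exact h.mem i hi

/-- The ear bound: in a connected leafless edge set, extra edges are at least half the girth. -/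
lemma ear_bound {γ : Finset (Sym2 V)} (hno : ∀ e ∈ γ, ¬ e.IsDiag) (hconn : Conn γ)
    {n : ℕ} {c : ℕ → V} (hmin : MinCyc γ n c)
    (hnoleaf : ∀ l u, s(l, u) ∈ γ → ∃ e ∈ γ, l ∈ e ∧ e ≠ s(l, u))
    (hne : cycEdges n c ≠ γ) :
    n ≤ 2 * (γ \ cycEdges n c).card := by
  classical
  have hcyc := hmin.1
  have hn3 := hcyc.three_le
  have hn0 : 0 < n := by omega
  have hsub := hcyc.edges_subset
  set S := cycVerts n c with hS
  have hmemS : ∀ v, v ∈ S ↔ ∃ i < n, c i = v := by
    intro v; simp [hS, cycVerts]
  -- the outward family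
  let Out : ℕ → (ℕ → V) → Prop := fun k p =>
    IsPth γ k p ∧ (∃ a < n, p 0 = c a) ∧ (∀ t, 1 ≤ t → t ≤ k → p t ∉ S) ∧ 1 ≤ k
  -- start
  have hstart : ∃ p, Out 1 p := by
    have hnonempty : (cycEdges n c).Nonempty := by
      refine ⟨s(c 0, c (0 + 1)), ?_⟩
      simp only [cycEdges, mem_image, mem_range]
      exact ⟨0, hn0, rfl⟩
    obtain ⟨g, hg, v, hv, h, hh, hvh⟩ := hconn (cycEdges n c) hsub hnonempty hne
    simp only [Finset.mem_sdiff] at hg
    have hvS : v ∈ S := mem_cycVerts_of_mem_cycEdges hn0 hcyc.closed hh hvh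
    obtain ⟨i₀, hi₀, rfl⟩ := (hmemS v).1 hvS
    obtain ⟨w, rfl⟩ := hv
    have hwne : c i₀ ≠ w := fun h => hno _ hg.1 (by simp [h])
    have hwS : w ∉ S := by
      intro hw
      obtain ⟨j, hj, rfl⟩ := (hmemS w).1 hw
      have hij : i₀ ≠ j := fun h => hwne (by rw [h])
      exact hg.2 (hmin.induced i₀ j hi₀ hj hij hg.1)
    have hp₀ : IsPth γ 0 (fun _ => c i₀) := ⟨by intro i hi j hj _; omega, by intro i hi; omega⟩
    have hp₁ := hp₀.extend w (fun j _ => hwne) hg.1
    refine ⟨_, hp₁, ⟨i₀, hi₀, by simp⟩, ?_, le_rfl⟩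
    intro t h1 h2
    have : t = 1 := by omega
    subst this
    simpa using hwS
  obtain ⟨k, ⟨p, hOut⟩, hmax⟩ := exists_max_of_bdd (fun k => ∃ p, Out k p) (Fintype.card V)
    (fun k ⟨p, hp⟩ => hp.1.length_lt.le) 1 hstart
  obtain ⟨hp, ⟨a, ha, hp0⟩, hpS, hk⟩ := hOut
  -- the last edge and the other edge at the endpoint
  have hlast : s(p (k - 1), p (k - 1 + 1)) ∈ γ := hp.mem (k - 1) (by omega)
  have e4 : k - 1 + 1 = k := by omega
  rw [e4, Sym2.eq_swap] at hlast
  obtain ⟨e', he', hze', hne'⟩ := hnoleaf _ _ hlast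
  obtain ⟨w, rfl⟩ := hze'
  have hzw : p k ≠ w := fun h => hno _ he' (by simp [h])
  have hzS : p k ∉ S := hpS k hk le_rfl
  have hwnek1 : w ≠ p (k - 1) := fun h => hne' (by rw [h])
  -- the main length estimate
  have hlen : n ≤ 2 * (k + 1) := by
    by_cases hwS : w ∈ S
    · obtain ⟨b, hb, rfl⟩ := (hmemS w).1 hwS
      by_cases hab : b = a
      · subst hab
        have hk2 : 2 ≤ k := by
          by_contra hcon
          have : k = 1 := by omega
          subst this
          exact hwnek1 (by simpa using hp0.symm)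
        have hedge : s(p k, p 0) ∈ γ := by rw [hp0]; exact he'
        obtain ⟨c', hc'⟩ := cyc_of_path hp hedge hk2
        have := hmin.2 _ _ hc'
        omega
      · -- two arcs
        obtain ⟨d, hd1, hd2, hd3⟩ : ∃ d, 1 ≤ d ∧ d < n ∧ cper n c (b + d) = c a := by
          by_cases hlt : b < a
          · refine ⟨a - b, by omega, by omega, ?_⟩
            have : b + (a - b) = a := by omega
            simp only [cper, this, Nat.mod_eq_of_lt ha]
          · refine ⟨a + n - b, by omega, by omega, ?_⟩
            have : b + (a + n - b) = a + n := by omega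
            simp only [cper, this, Nat.add_mod_right, Nat.mod_eq_of_lt ha]
        have hb0 : cper n c (b + 0) = c b := by
          simp only [cper, add_zero, Nat.mod_eq_of_lt hb]
        have hbn : cper n c (b + d + (n - d)) = c b := by
          have : b + d + (n - d) = b + n := by omega
          simp only [cper, this, Nat.add_mod_right, Nat.mod_eq_of_lt hb]
        have hin : ∀ t, cper n c t ∈ S := by
          intro t
          exact (hmemS _).2 ⟨t % n, Nat.mod_lt _ hn0, rfl⟩
        -- forward
        have hr₁ := hcyc.arc b d hd2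
        have h₁ := cyc_of_two_paths hp hr₁ (by rw [hp0, hd3])
          (by rw [hb0]; exact he')
          (by
            intro t ht t' ht' h
            by_cases h0 : t = 0
            · subst h0
              rw [hp0, ← hd3] at h
              have := hr₁.inj d le_rfl t' ht'.le h
              omega
            · exact hpS t (by omega) ht (h ▸ hin _))
          (by omega)
        have l₁ := hmin.2 _ _ h₁
        -- backward
        have hr₂ := (hcyc.arc (b + d) (n - d) (by omega)).reverse
        have hclose₂ : cper n c (b + d + (n - d - (n - d))) = p 0 := by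
          have : n - d - (n - d) = 0 := by omega
          rw [this, add_zero, hd3, hp0]
        have h₂ := cyc_of_two_paths hp hr₂ hclose₂
          (by
            have : b + d + (n - d - 0) = b + d + (n - d) := by omega
            simp only [this, hbn]
            exact he')
          (by
            intro t ht t' ht' h
            by_cases h0 : t = 0
            · subst h0
              rw [← hclose₂] at h
              have := hr₂.inj (n - d) le_rfl t' ht'.le h
              omega
            · exact hpS t (by omega) ht (h ▸ hin _))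
          (by omega)
        have l₂ := hmin.2 _ _ h₂
        omega
    · by_cases hwp : ∃ j ≤ k, p j = w
      · obtain ⟨j, hj, rfl⟩ := hwp
        have hj0 : j ≠ 0 := by
          intro h
          subst h
          apply hwS
          rw [hp0]
          exact (hmemS _).2 ⟨a, ha, rfl⟩
        have hjk : j ≠ k := fun h => hzw (by rw [h])
        have hjk1 : j ≠ k - 1 := fun h => hwnek1 (by rw [h])
        have hsub' := hp.sub j (k - j) (by omega)
        have hedge : s(p (j + (k - j)), p (j + 0)) ∈ γ := by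
          have e1 : j + (k - j) = k := by omega
          rw [e1, add_zero]
          exact he'
        obtain ⟨c', hc'⟩ := cyc_of_path hsub' hedge (by omega)
        have := hmin.2 _ _ hc'
        omega
      · exfalso
        have hw' : ∀ j ≤ k, p j ≠ w := fun j hj h => hwp ⟨j, hj, h⟩
        have hext := hp.extend w hw' he'
        have : k + 1 ≤ k := by
          apply hmax
          refine ⟨_, hext, ⟨a, ha, by simpa using hp0⟩, ?_, by omega⟩
          intro t h1 h2
          by_cases h3 : t ≤ k
          · simpa [h3] using hpS t h1 h3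
          · simpa [h3] using hwS
        omega
  -- counting
  have hcount : k + 1 ≤ (γ \ cycEdges n c).card := by
    let ι : ℕ → Sym2 V := fun t => if t < k then s(p t, p (t + 1)) else s(p k, w)
    have hιmem : ∀ t ∈ range (k + 1), ι t ∈ γ \ cycEdges n c := by
      intro t ht
      have ht' := Finset.mem_range.1 ht
      simp only [Finset.mem_sdiff]
      by_cases h1 : t < k
      · simp only [ι, h1, if_true]
        refine ⟨hp.mem t h1, fun hmem => ?_⟩
        exact hpS (t + 1) (by omega) (by omega)
          (mem_cycVerts_of_mem_cycEdges hn0 hcyc.closed hmem (by simp))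
      · simp only [ι, h1, if_false]
        refine ⟨he', fun hmem => ?_⟩
        exact hzS (mem_cycVerts_of_mem_cycEdges hn0 hcyc.closed hmem (by simp))
    have hιinj : Set.InjOn ι (range (k + 1) : Set ℕ) := by
      have key : ∀ t t', t < t' → t' ≤ k → ι t ≠ ι t' := by
        intro t t' htt' ht' heq
        have h1 : t < k := by omega
        by_cases h2 : t' < k
        · simp only [ι, h1, h2, if_true, Sym2.eq_iff] at heq
          rcases heq with ⟨h3, _⟩ | ⟨h3, _⟩
          · have := hp.inj _ (by omega) _ (by omega) h3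
            omega
          · have := hp.inj _ (by omega) _ (by omega) h3
            omega
        · simp only [ι, h1, h2, if_true, if_false, Sym2.eq_iff] at heq
          rcases heq with ⟨h3, h4⟩ | ⟨h3, h4⟩
          · have := hp.inj _ (by omega) _ (by omega) h3
            omega
          · have h5 := hp.inj _ (by omega) _ (by omega) h4
            have : t = k - 1 := by omega
            subst this
            apply hwnek1
            rw [← h3]
      intro t ht t' ht' heq
      simp only [coe_range, Set.mem_Iio] at ht ht'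
      rcases lt_trichotomy t t' with h | h | h
      · exact absurd heq (key t t' h (by omega))
      · exact h
      · exact absurd heq.symm (key t' t h (by omega))
    have := Finset.card_le_card_of_injOn ι hιmem hιinj
    simpa using this
  omega

end

end Vale.Agent.Lib.P050
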