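import Vale.Agent.Lib.P050.FiniteForm

set_option linter.unusedSectionVars false
set_option linter.unusedVariables false

open MeasureTheory ProbabilityTheory Finset Function Filter Topology
open scoped BigOperators Classical

namespace Vale.Agent.Lib.P050

noncomputable section

variable {Ω : Type*} [MeasurableSpace Ω] {μ : Measure Ω} [IsProbabilityMeasure μ]

lemma map_precomp {ι κ : Type*} [Fintype ι] [Fintype κ] (ψ : κ → ι) (hψ : Function.Injective ψ) :
    (Measure.pi (fun _ : ι => μ)).map (fun s k => s (ψ k)) = Measure.pi (fun _ : κ => μ) := by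
  have h1 : iIndepFun (fun (i : ι) (s : ι → Ω) => s i) (Measure.pi (fun _ : ι => μ)) :=
    iIndepFun_pi (X := fun _ => id) (fun _ => aemeasurable_id)
  have h2 := h1.precomp hψ
  have hm : ∀ k, AEMeasurable (fun s : ι → Ω => s (ψ k)) (Measure.pi fun _ => μ) :=
    fun k => (measurable_pi_apply _).aemeasurable
  have h3 := (iIndepFun_iff_map_fun_eq_pi_map hm).1 h2
  rw [h3]
  congr
  ext k : 1
  exact (measurePreserving_eval (fun _ => μ) (ψ k)).map_eq

lemma map_pair {ι : Type*} [Fintype ι] (a b : ι) (hab : a ≠ b) :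
    (Measure.pi (fun _ : ι => μ)).map (fun s => (s a, s b)) = μ.prod μ := by
  have h1 : iIndepFun (fun (i : ι) (s : ι → Ω) => s i) (Measure.pi (fun _ : ι => μ)) :=
    iIndepFun_pi (X := fun _ => id) (fun _ => aemeasurable_id)
  have h2 := h1.indepFun hab
  have h3 := (indepFun_iff_map_prod_eq_prod_map_map (measurable_pi_apply a).aemeasurable
    (measurable_pi_apply b).aemeasurable).1 h2
  rw [h3, (measurePreserving_eval (fun _ => μ) a).map_eq,
    (measurePreserving_eval (fun _ => μ) b).map_eq]

/-- The weight on a sample. -/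
def sW (p : ℝ) (W : Sym2 Ω → ℝ) {ι : Type*} (s : ι → Ω) (e : Sym2 ι) : ℝ :=
  if e.IsDiag then p else W (e.map s)

section

variable {W : Sym2 Ω → ℝ} (hW : Measurable (fun q : Ω × Ω => W s(q.1, q.2)))
include hW

lemma meas_edge {ι : Type*} (e : Sym2 ι) : Measurable (fun s : ι → Ω => W (e.map s)) := by
  induction e using Sym2.ind with
  | _ a b =>
    simp only [Sym2.map_mk]
    have h1 : Measurable (fun s : ι → Ω => (s a, s b)) :=
      (measurable_pi_apply a).prodMk (measurable_pi_apply b)
    exact hW.comp h1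

lemma meas_sW (p : ℝ) {ι : Type*} (e : Sym2 ι) : Measurable (fun s : ι → Ω => sW p W s e) := by
  unfold sW
  split_ifs with h
  · exact measurable_const
  · exact meas_edge hW e

end

/-- The integral of the weight of a nondiagonal pair. -/
lemma int_pair {W : Sym2 Ω → ℝ} (hW : Measurable (fun q : Ω × Ω => W s(q.1, q.2)))
    {ι : Type*} [Fintype ι] (a b : ι) (hab : a ≠ b) :
    ∫ s, W s(s a, s b) ∂(Measure.pi (fun _ : ι => μ)) = ∫ q, W s(q.1, q.2) ∂(μ.prod μ) := by
  rw [← map_pair (μ := μ) a b hab, integral_map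
    ((measurable_pi_apply a).prodMk (measurable_pi_apply b)).aemeasurable
    hW.aestronglyMeasurable]

/-- The sampled points are almost surely good. -/
lemma ae_good {W : Sym2 Ω → ℝ} {ι : Type*} [Fintype ι] {p D : ℝ}
    (hclose : ∀ᵐ q ∂(μ.prod μ), |W s(q.1, q.2) - p| ≤ D) :
    ∀ᵐ s ∂(Measure.pi (fun _ : ι => μ)), ∀ a b : ι, a ≠ b → |W s(s a, s b) - p| ≤ D := by
  rw [ae_all_iff]
  intro a
  rw [ae_all_iff]
  intro b
  by_cases hab : a = b
  · exact Filter.Eventually.of_forall (fun s h => absurd hab h)
  · have h1 : ∀ᵐ q ∂((Measure.pi (fun _ : ι => μ)).map (fun s => (s a, s b))),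
        |W s(q.1, q.2) - p| ≤ D := by
      rw [map_pair a b hab]
      exact hclose
    have h2 := ae_of_ae_map
      ((measurable_pi_apply a).prodMk (measurable_pi_apply b)).aemeasurable h1
    filter_upwards [h2] with s hs _ using hs

lemma sW_close {W : Sym2 Ω → ℝ} {ι : Type*} {p D : ℝ} (hD : 0 ≤ D) {s : ι → Ω}
    (hs : ∀ a b : ι, a ≠ b → |W s(s a, s b) - p| ≤ D) (e : Sym2 ι) :
    |sW p W s e - p| ≤ D := by
  induction e using Sym2.ind with
  | _ a b =>
    unfold sW
    split_ifs with h
    · simpa using hD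
    · have hab : a ≠ b := fun h' => h (by simp [h'])
      simpa using hs a b hab

/-- The mean of the sample. -/
def sMean (p : ℝ) (W : Sym2 Ω → ℝ) {N : ℕ} (s : Fin N → Ω) : ℝ :=
  (∑ i, ∑ j, sW p W s s(i, j)) / (N : ℝ) ^ 2

lemma sMean_close {W : Sym2 Ω → ℝ} {N : ℕ} (hN : 0 < N) {p D : ℝ} {s : Fin N → Ω}
    (h : ∀ e, |sW p W s e - p| ≤ D) : |sMean p W s - p| ≤ D := by
  have hN' : (0 : ℝ) < N := by exact_mod_cast hN
  have e1 : sMean p W s - p = (∑ i, ∑ j, (sW p W s s(i, j) - p)) / (N : ℝ) ^ 2 := by
    unfold sMean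
    simp only [Finset.sum_sub_distrib, Finset.sum_const, Finset.card_univ, Fintype.card_fin,
      nsmul_eq_mul]
    field_simp
  rw [e1, abs_div, abs_of_pos (by positivity : (0 : ℝ) < (N : ℝ) ^ 2), div_le_iff₀ (by positivity)]
  calc |∑ i, ∑ j, (sW p W s s(i, j) - p)| ≤ ∑ i : Fin N, ∑ j : Fin N, D := by
        refine (Finset.abs_sum_le_sum_abs _ _).trans (Finset.sum_le_sum fun i _ => ?_)
        exact (Finset.abs_sum_le_sum_abs _ _).trans (Finset.sum_le_sum fun j _ => h _)
    _ = D * (N : ℝ) ^ 2 := by
        simp only [Finset.sum_const, Finset.card_univ, Fintype.card_fin, nsmul_eq_mul]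
        ring

/-- The expected mean of the sample is `p`. -/
lemma integral_sMean {W : Sym2 Ω → ℝ} (hW : Measurable (fun q : Ω × Ω => W s(q.1, q.2)))
    {N : ℕ} (hN : 0 < N) {p D : ℝ} (hmean : ∫ q, W s(q.1, q.2) ∂(μ.prod μ) = p) (hD : 0 ≤ D)
    (hclose : ∀ᵐ q ∂(μ.prod μ), |W s(q.1, q.2) - p| ≤ D) :
    ∫ s, sMean p W s ∂(Measure.pi (fun _ : Fin N => μ)) = p := by
  have hN' : (0 : ℝ) < N := by exact_mod_cast hN
  have hint : ∀ e : Sym2 (Fin N), Integrable (fun s => sW p W s e)
      (Measure.pi (fun _ : Fin N => μ)) := by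
    intro e
    refine Integrable.of_bound (meas_sW hW p e).aestronglyMeasurable (|p| + D) ?_
    filter_upwards [ae_good (ι := Fin N) hclose] with s hs
    have h1 := sW_close hD hs e
    rw [Real.norm_eq_abs]
    have h2 : |sW p W s e| ≤ |sW p W s e - p| + |p| := by
      have := abs_add_le (sW p W s e - p) p
      simpa using this
    linarith
  have hval : ∀ i j : Fin N, ∫ s, sW p W s s(i, j) ∂(Measure.pi (fun _ : Fin N => μ)) = p := by
    intro i j
    by_cases hij : i = j
    · subst hij
      have : ∀ s : Fin N → Ω, sW p W s s(i, i) = p := fun s => by simp [sW]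
      simp [this]
    · have : ∀ s : Fin N → Ω, sW p W s s(i, j) = W s(s i, s j) := fun s => by
        simp [sW, hij]
      simp only [this]
      rw [int_pair hW i j hij, hmean]
  unfold sMean
  rw [integral_div, integral_finsetSum _ (fun i _ => integrable_finsetSum _ fun j _ => hint _)]
  simp only [integral_finsetSum _ (fun j _ => hint _), hval, Finset.sum_const, Finset.card_univ,
    Fintype.card_fin, nsmul_eq_mul]
  field_simp

/-- Jensen for powers. -/
lemma pow_tangent {x p : ℝ} (hx : 0 ≤ x) (hp : 0 < p) (m : ℕ) :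
    p ^ m + m * p ^ m * (x / p - 1) ≤ x ^ m := by
  have h1 : (-2 : ℝ) ≤ x / p - 1 := by
    have : 0 ≤ x / p := by positivity
    linarith
  have h2 := one_add_mul_le_pow h1 m
  have e : 1 + (x / p - 1) = x / p := by ring
  rw [e] at h2
  have h3 : x ^ m = p ^ m * (x / p) ^ m := by
    rw [div_pow]; field_simp
  rw [h3]
  have h4 : 0 < p ^ m := by positivity
  nlinarith

/-- Counting injective maps. -/
lemma card_inj_lower (V : Type*) [Fintype V] [DecidableEq V] (N : ℕ) :
    (N + 1 - Fintype.card V) ^ Fintype.card V ≤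
      (univ.filter (fun ψ : V → Fin N => Function.Injective ψ)).card := by
  have h1 := N.pow_sub_le_descFactorial (Fintype.card V)
  have h2 : Fintype.card (V ↪ Fin N) = N.descFactorial (Fintype.card V) := by
    rw [Fintype.card_embedding_eq, Fintype.card_fin]
  have h3 : Fintype.card {ψ : V → Fin N // Function.Injective ψ} = Fintype.card (V ↪ Fin N) :=
    Fintype.card_congr (Equiv.subtypeInjectiveEquivEmbedding V (Fin N))
  rw [Fintype.card_subtype] at h3
  rw [h3, h2]
  exact h1

lemma card_inj_upper (V : Type*) [Fintype V] [DecidableEq V] (N : ℕ) :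
    (univ.filter (fun ψ : V → Fin N => Function.Injective ψ)).card ≤ N ^ Fintype.card V := by
  have h := Finset.card_filter_le (univ : Finset (V → Fin N))
    (fun ψ : V → Fin N => Function.Injective ψ)
  rw [Finset.card_univ, Fintype.card_fun, Fintype.card_fin] at h
  exact h

/-- The density of injective maps tends to one. -/
lemma tendsto_inj (V : Type*) [Fintype V] [DecidableEq V] :
    Tendsto (fun n : ℕ => ((univ.filter (fun ψ : V → Fin (n + 1) => Function.Injective ψ)).card : ℝ) /
      ((n + 1 : ℕ) : ℝ) ^ Fintype.card V) atTop (𝓝 1) := by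
  set k := Fintype.card V with hk
  have hlow : Tendsto (fun n : ℕ => ((((n + 1) + 1 - k : ℕ) : ℝ) / ((n + 1 : ℕ) : ℝ)) ^ k) atTop
      (𝓝 1) := by
    have h1 : Tendsto (fun n : ℕ => ((((n + 1) + 1 - k : ℕ) : ℝ) / ((n + 1 : ℕ) : ℝ))) atTop
        (𝓝 1) := by
      have h2 : Tendsto (fun n : ℕ => (1 : ℝ) + (1 - (k : ℝ)) / ((n + 1 : ℕ) : ℝ)) atTop
          (𝓝 (1 + 0)) := by
        apply Tendsto.add tendsto_const_nhds
        have h3 : Tendsto (fun n : ℕ => ((n + 1 : ℕ) : ℝ)) atTop atTop :=
          tendsto_natCast_atTop_atTop.comp (tendsto_add_atTop_nat 1)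
        exact Tendsto.div_atTop tendsto_const_nhds h3
      rw [add_zero] at h2
      refine h2.congr' ?_
      filter_upwards [eventually_ge_atTop k] with n hn
      have hn1 : ((n + 1 : ℕ) : ℝ) ≠ 0 := by positivity
      have e : (((n + 1) + 1 - k : ℕ) : ℝ) = (n : ℝ) + 1 + 1 - k := by
        rw [Nat.cast_sub (by omega)]
        push_cast
        ring
      rw [e]
      push_cast at hn1 ⊢
      field_simp
      ring
    simpa using h1.pow k
  refine tendsto_of_tendsto_of_tendsto_of_le_of_le hlow tendsto_const_nhds ?_ ?_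
  · intro n
    simp only
    rw [div_pow]
    apply div_le_div_of_nonneg_right _ (by positivity)
    have := card_inj_lower V (n + 1)
    rw [← hk] at this
    exact_mod_cast this
  · intro n
    simp only
    rw [div_le_one (by positivity)]
    have := card_inj_upper V (n + 1)
    rw [← hk] at this
    exact_mod_cast this

/-- The kernel form of the local inequality, for any probability space. -/
theorem kernel_local {V Ω : Type*} [Fintype V] [DecidableEq V] [MeasurableSpace Ω]
    (μ : Measure Ω) [IsProbabilityMeasure μ]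
    (H : SimpleGraph V) [DecidableRel H.Adj] (hbip : H.Colorable 2)
    (Δ : ℕ) (hΔ : 1 ≤ Δ) (hdeg : ∀ v, H.degree v ≤ Δ)
    (W : Sym2 Ω → ℝ) (hW : Measurable (fun q : Ω × Ω => W s(q.1, q.2)))
    (p : ℝ) (hp : 0 < p)
    (hmean : ∫ q, W s(q.1, q.2) ∂(μ.prod μ) = p)
    (hclose : ∀ᵐ q ∂(μ.prod μ), |W s(q.1, q.2) - p| ≤ p / (2001 * (Δ : ℝ))) :
    p ^ H.edgeFinset.card ≤
      ∫ x : V → Ω, ∏ e ∈ H.edgeFinset, W (e.map x) ∂(Measure.pi fun _ => μ) := by
  have hΔ' : (1 : ℝ) ≤ Δ := by exact_mod_cast hΔ
  set m := H.edgeFinset.card with hm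
  set k := Fintype.card V with hk
  set D : ℝ := p / (2001 * (Δ : ℝ)) with hD
  have hD0 : 0 ≤ D := by positivity
  have hD1 : D ≤ p / 2001 := by
    rw [hD]
    apply div_le_div_of_nonneg_left hp.le (by norm_num)
    linarith
  set t : ℝ := ∫ x : V → Ω, ∏ e ∈ H.edgeFinset, W (e.map x) ∂(Measure.pi fun _ => μ) with ht
  set B : ℝ := (2 * p) ^ m with hB
  -- the main inequality for each size of the sample
  have key : ∀ n : ℕ, p ^ m ≤
      ((univ.filter (fun ψ : V → Fin (n + 1) => Function.Injective ψ)).card : ℝ) /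
        ((n + 1 : ℕ) : ℝ) ^ k * t +
      (1 - ((univ.filter (fun ψ : V → Fin (n + 1) => Function.Injective ψ)).card : ℝ) /
        ((n + 1 : ℕ) : ℝ) ^ k) * B := by
    intro n
    set N := n + 1 with hN
    have hN0 : 0 < N := by omega
    have hN' : (0 : ℝ) < (N : ℝ) := by exact_mod_cast hN0
    set π : Measure (Fin N → Ω) := Measure.pi (fun _ : Fin N => μ) with hπ
    have hgood := ae_good (ι := Fin N) hclose
    -- the pointwise inequality
    have hpt : ∀ᵐ s ∂π, (N : ℝ) ^ k * sMean p W s ^ m ≤
        ∑ ψ : V → Fin N, ∏ e ∈ H.edgeFinset, sW p W s (e.map ψ) := by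
      filter_upwards [hgood] with s hs
      have h1 := sW_close hD0 hs
      have h2 := sMean_close hN0 h1
      have h3 := abs_le.1 h2
      have hmeanpos : 0 < sMean p W s := by
        have : p / 2001 < p := by linarith
        linarith
      have hclose' : ∀ e, |sW p W s e - sMean p W s| ≤
          sMean p W s / (1000 * (Δ : ℝ)) := by
        intro e
        have h4 := abs_le.1 (h1 e)
        have h5 : |sW p W s e - sMean p W s| ≤ 2 * D := by
          rw [abs_le]
          constructor <;> linarith
        refine h5.trans ?_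
        rw [le_div_iff₀ (by positivity)]
        have e6 : 2 * D * (1000 * (Δ : ℝ)) = 2000 / 2001 * p := by
          rw [hD]; field_simp; ring
        rw [e6]
        linarith
      have h7 := finite_local H hbip Δ hΔ hdeg (sW p W s) (sMean p W s) hmeanpos (by
        simp only [Fintype.card_fin]
        unfold sMean
        field_simp) hclose'
      simp only [Fintype.card_fin] at h7
      exact h7
    -- integrability
    have hFmeas : ∀ ψ : V → Fin N, Measurable (fun s : Fin N → Ω =>
        ∏ e ∈ H.edgeFinset, sW p W s (e.map ψ)) := by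
      intro ψ
      exact Finset.measurable_prod _ (fun e _ => meas_sW hW p _)
    have hsWb : ∀ s : Fin N → Ω, (∀ a b : Fin N, a ≠ b → |W s(s a, s b) - p| ≤ D) →
        ∀ e, 0 ≤ sW p W s e ∧ sW p W s e ≤ 2 * p := by
      intro s hs e
      have h1 := abs_le.1 (sW_close hD0 hs e)
      constructor <;> linarith
    have hFbd : ∀ ψ : V → Fin N, ∀ᵐ s ∂π,
        ‖∏ e ∈ H.edgeFinset, sW p W s (e.map ψ)‖ ≤ B := by
      intro ψ
      filter_upwards [hgood] with s hs
      rw [Real.norm_eq_abs, abs_of_nonneg
        (Finset.prod_nonneg fun e _ => (hsWb s hs _).1), hB, hm]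
      calc ∏ e ∈ H.edgeFinset, sW p W s (e.map ψ) ≤ ∏ _e ∈ H.edgeFinset, (2 * p) :=
            Finset.prod_le_prod (fun e _ => (hsWb s hs _).1) (fun e _ => (hsWb s hs _).2)
        _ = (2 * p) ^ H.edgeFinset.card := Finset.prod_const _
    have hFint : ∀ ψ : V → Fin N, Integrable (fun s : Fin N → Ω =>
        ∏ e ∈ H.edgeFinset, sW p W s (e.map ψ)) π := fun ψ =>
      Integrable.of_bound (hFmeas ψ).aestronglyMeasurable B (hFbd ψ)
    have hFval : ∀ ψ : V → Fin N, Function.Injective ψ →
        ∫ s, ∏ e ∈ H.edgeFinset, sW p W s (e.map ψ) ∂π = t := by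
      intro ψ hψ
      have e1 : ∀ s : Fin N → Ω, ∏ e ∈ H.edgeFinset, sW p W s (e.map ψ) =
          ∏ e ∈ H.edgeFinset, W (e.map (fun v => s (ψ v))) := by
        intro s
        apply Finset.prod_congr rfl
        intro e he
        have hnd : ¬ e.IsDiag :=
          SimpleGraph.not_isDiag_of_mem_edgeSet H (SimpleGraph.mem_edgeFinset.1 he)
        have hnd' : ¬ (e.map ψ).IsDiag := by
          rwa [Sym2.isDiag_map hψ]
        unfold sW
        rw [if_neg hnd', Sym2.map_map]
        rfl
      simp only [e1]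
      have hmeas : Measurable (fun s : Fin N → Ω => fun v => s (ψ v)) :=
        measurable_pi_lambda _ (fun v => measurable_pi_apply _)
      have hmp := map_precomp (μ := μ) ψ hψ
      rw [ht, ← hmp, integral_map hmeas.aemeasurable]
      exact (Finset.measurable_prod _ (fun e _ => meas_edge hW e)).aestronglyMeasurable
    have hFle : ∀ ψ : V → Fin N, ∫ s, ∏ e ∈ H.edgeFinset, sW p W s (e.map ψ) ∂π ≤ B := by
      intro ψ
      have h1 : ∫ s, ∏ e ∈ H.edgeFinset, sW p W s (e.map ψ) ∂π ≤ ∫ _s, B ∂π := by
        apply integral_mono_ae (hFint ψ) (integrable_const _)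
        filter_upwards [hFbd ψ] with s hs
        exact (le_abs_self _).trans hs
      simpa using h1
    -- the mean
    have hmeanint : Integrable (fun s : Fin N → Ω => sMean p W s) π := by
      refine Integrable.of_bound ?_ (|p| + D) ?_
      · unfold sMean
        have : Measurable (fun s : Fin N → Ω => (∑ i, ∑ j, sW p W s s(i, j)) / (N : ℝ) ^ 2) := by
          apply Measurable.div_const
          exact Finset.measurable_sum _ (fun i _ => Finset.measurable_sum _
            (fun j _ => meas_sW hW p _))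
        exact this.aestronglyMeasurable
      · filter_upwards [hgood] with s hs
        have h1 := sMean_close hN0 (sW_close hD0 hs)
        rw [Real.norm_eq_abs]
        have h2 : |sMean p W s| ≤ |sMean p W s - p| + |p| := by
          have := abs_add_le (sMean p W s - p) p
          simpa using this
        linarith
    have hpowint : Integrable (fun s : Fin N → Ω => sMean p W s ^ m) π := by
      refine Integrable.of_bound ?_ B ?_
      · exact (hmeanint.aestronglyMeasurable).pow m
      · filter_upwards [hgood] with s hs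
        have h1 := abs_le.1 (sMean_close hN0 (sW_close hD0 hs))
        have h0 : 0 ≤ sMean p W s := by
          have : p / 2001 < p := by linarith
          linarith
        rw [Real.norm_eq_abs, abs_of_nonneg (by positivity), hB]
        apply pow_le_pow_left₀ h0
        linarith
    have hjensen : p ^ m ≤ ∫ s, sMean p W s ^ m ∂π := by
      have h1 : ∫ s, (p ^ m + m * p ^ m * (sMean p W s / p - 1)) ∂π ≤ ∫ s, sMean p W s ^ m ∂π := by
        apply integral_mono_ae _ hpowint
        · filter_upwards [hgood] with s hs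
          have h1 := abs_le.1 (sMean_close hN0 (sW_close hD0 hs))
          have h0 : 0 ≤ sMean p W s := by
            have : p / 2001 < p := by linarith
            linarith
          exact pow_tangent h0 hp m
        · exact (integrable_const _).add (((hmeanint.div_const p).sub (integrable_const _)).const_mul _)
      have h2 : ∫ s, (p ^ m + m * p ^ m * (sMean p W s / p - 1)) ∂π = p ^ m := by
        have hi1 : Integrable (fun s : Fin N → Ω => sMean p W s / p - 1) π :=
          (hmeanint.div_const p).sub (integrable_const _)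
        have e1 : ∫ s, (sMean p W s / p - 1) ∂π = 0 := by
          have e0 : ∫ s, sMean p W s / p ∂π = 1 := by
            rw [integral_div, integral_sMean hW hN0 hmean hD0 hclose]
            exact div_self hp.ne'
          rw [integral_sub (hmeanint.div_const p) (integrable_const _), e0]
          simp
        have e2 : ∫ s, (p ^ m + m * p ^ m * (sMean p W s / p - 1)) ∂π =
            ∫ _s, p ^ m ∂π + ∫ s, m * p ^ m * (sMean p W s / p - 1) ∂π :=
          integral_add (integrable_const _) (hi1.const_mul _)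
        rw [e2, integral_const_mul, e1]
        simp
      linarith
    -- integrating
    have hint : (N : ℝ) ^ k * ∫ s, sMean p W s ^ m ∂π ≤
        ∑ ψ : V → Fin N, ∫ s, ∏ e ∈ H.edgeFinset, sW p W s (e.map ψ) ∂π := by
      rw [← integral_const_mul, ← integral_finsetSum _ (fun ψ _ => hFint ψ)]
      apply integral_mono_ae (hpowint.const_mul _)
        (integrable_finsetSum _ (fun ψ _ => hFint ψ)) hpt
    set I : ℝ := ((univ.filter (fun ψ : V → Fin N => Function.Injective ψ)).card : ℝ) with hI
    have hsum : ∑ ψ : V → Fin N, ∫ s, ∏ e ∈ H.edgeFinset, sW p W s (e.map ψ) ∂π ≤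
        I * t + ((N : ℝ) ^ k - I) * B := by
      have h1 : ∀ ψ : V → Fin N, ∫ s, ∏ e ∈ H.edgeFinset, sW p W s (e.map ψ) ∂π ≤
          (if Function.Injective ψ then (1 : ℝ) else 0) * t +
            (1 - (if Function.Injective ψ then (1 : ℝ) else 0)) * B := by
        intro ψ
        split_ifs with h
        · rw [hFval ψ h]; simp
        · simpa using hFle ψ
      refine (Finset.sum_le_sum (fun ψ _ => h1 ψ)).trans (le_of_eq ?_)
      rw [Finset.sum_add_distrib, ← Finset.sum_mul, ← Finset.sum_mul, Finset.sum_sub_distrib,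
        Finset.sum_boole, Finset.sum_const, Finset.card_univ, Fintype.card_fun, Fintype.card_fin]
      simp [hI, hk]
    have hNk : (0 : ℝ) < (N : ℝ) ^ k := by positivity
    have h9 : (N : ℝ) ^ k * p ^ m ≤ I * t + ((N : ℝ) ^ k - I) * B :=
      (mul_le_mul_of_nonneg_left hjensen hNk.le).trans (hint.trans hsum)
    have e9 : I / (N : ℝ) ^ k * t + (1 - I / (N : ℝ) ^ k) * B =
        (I * t + ((N : ℝ) ^ k - I) * B) / (N : ℝ) ^ k := by
      field_simp
    rw [e9, le_div_iff₀ hNk]
    linarith
  -- taking the limit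
  have hlim := tendsto_inj V
  rw [← hk] at hlim
  have hlim2 : Tendsto (fun n : ℕ =>
      ((univ.filter (fun ψ : V → Fin (n + 1) => Function.Injective ψ)).card : ℝ) /
        ((n + 1 : ℕ) : ℝ) ^ k * t +
      (1 - ((univ.filter (fun ψ : V → Fin (n + 1) => Function.Injective ψ)).card : ℝ) /
        ((n + 1 : ℕ) : ℝ) ^ k) * B) atTop (𝓝 (1 * t + (1 - 1) * B)) :=
    (hlim.mul_const t).add ((tendsto_const_nhds.sub hlim).mul_const B)
  have e10 : (1 : ℝ) * t + (1 - 1) * B = t := by ring
  rw [e10] at hlim2
  exact ge_of_tendsto' hlim2 key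

end

end Vale.Agent.Lib.P050
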