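import Vale.Agent.Lib.P050.Cyc

set_option linter.unusedSectionVars false
set_option linter.unusedVariables false

namespace Vale.Agent.Lib.P050

noncomputable section

open Finset Function
open scoped BigOperators

variable {V Ω : Type*} [Fintype V] [DecidableEq V] [Fintype Ω] [DecidableEq Ω] [Nonempty Ω]

/-- Density of an edge set under `f`. -/
def tt (f : Sym2 Ω → ℝ) (F : Finset (Sym2 V)) : ℝ := 𝔼 x : V → Ω, ∏ e ∈ F, f (e.map x)

/-- Marginal of `f`. -/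
def dd (f : Sym2 Ω → ℝ) (b : Ω) : ℝ := 𝔼 a : Ω, f s(a, b)

/-- Squared norm of the marginal. -/
def w2 (f : Sym2 Ω → ℝ) : ℝ := 𝔼 b : Ω, dd f b ^ 2

lemma w2_nonneg (f : Sym2 Ω → ℝ) : 0 ≤ w2 f :=
  Finset.expect_nonneg (fun _ _ => sq_nonneg _)

lemma prod_abs_le (f : Sym2 Ω → ℝ) (ε : ℝ) (hε : 0 ≤ ε) (hf : ∀ p, |f p| ≤ ε)
    (F : Finset (Sym2 V)) (x : V → Ω) : |∏ e ∈ F, f (e.map x)| ≤ ε ^ F.card := by
  rw [Finset.abs_prod]
  calc ∏ e ∈ F, |f (e.map x)| ≤ ∏ _e ∈ F, ε :=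
        Finset.prod_le_prod (fun _ _ => abs_nonneg _) (fun e _ => hf _)
    _ = ε ^ F.card := by simp

lemma abs_tt_le (f : Sym2 Ω → ℝ) (ε : ℝ) (hε : 0 ≤ ε) (hf : ∀ p, |f p| ≤ ε)
    (F : Finset (Sym2 V)) : |tt f F| ≤ ε ^ F.card := by
  refine (abs_expect_le _ _).trans ?_
  exact Finset.expect_le univ_nonempty (fun x _ => prod_abs_le f ε hε hf F x)

lemma prod_update_eq (f : Sym2 Ω → ℝ) (F : Finset (Sym2 V)) (l : V) (hl : ∀ e ∈ F, l ∉ e)
    (x : V → Ω) (a : Ω) : ∏ e ∈ F, f (e.map (update x l a)) = ∏ e ∈ F, f (e.map x) := by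
  apply Finset.prod_congr rfl
  intro e he
  congr 1
  apply map_congr_of_mem
  intro v hv
  have : v ≠ l := fun h => hl e he (h ▸ hv)
  simp [update_of_ne this]

lemma leaf_int (f : Sym2 Ω → ℝ) (l u : V) (hlu : l ≠ u) (φ : (V → Ω) → ℝ)
    (hφ : ∀ x a, φ (update x l a) = φ x) :
    𝔼 x : V → Ω, φ x * f ((s(l, u)).map x) = 𝔼 x : V → Ω, φ x * dd f (x u) := by
  rw [expect_update _ l]
  refine Finset.expect_congr rfl ?_
  intro x _
  simp only [Sym2.map_mk, hφ, update_self, update_of_ne hlu.symm]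
  rw [← mul_expect]
  rfl

lemma expect_abs_mul_le (f : Sym2 Ω → ℝ) (u₁ u₂ : V) :
    𝔼 x : V → Ω, |dd f (x u₁)| * |dd f (x u₂)| ≤ w2 f := by
  have h := Finset.expect_mul_sq_le_sq_mul_sq (univ : Finset (V → Ω))
    (fun x => |dd f (x u₁)|) (fun x => |dd f (x u₂)|)
  simp only [sq_abs] at h
  have e1 : ∀ u : V, 𝔼 x : V → Ω, dd f (x u) ^ 2 = w2 f := fun u =>
    expect_coord (fun a => dd f a ^ 2) u
  rw [e1, e1] at h
  have h0 := w2_nonneg f
  have h1 : (𝔼 x : V → Ω, |dd f (x u₁)| * |dd f (x u₂)|) ^ 2 ≤ w2 f ^ 2 := by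
    rw [pow_two (w2 f)]; exact h
  exact (le_abs_self _).trans (abs_le_of_sq_le_sq h1 h0)

lemma two_leaves (f : Sym2 Ω → ℝ) (ε : ℝ) (hε : 0 ≤ ε) (hf : ∀ p, |f p| ≤ ε)
    (γ : Finset (Sym2 V)) (l₁ u₁ l₂ u₂ : V) (h₁ : s(l₁, u₁) ∈ γ) (h₂ : s(l₂, u₂) ∈ γ)
    (hne₁ : l₁ ≠ u₁) (hne₂ : l₂ ≠ u₂) (hdiff : s(l₁, u₁) ≠ s(l₂, u₂))
    (hleaf₁ : ∀ e ∈ γ, l₁ ∈ e → e = s(l₁, u₁)) (hleaf₂ : ∀ e ∈ γ, l₂ ∈ e → e = s(l₂, u₂)) :
    |tt f γ| ≤ ε ^ (γ.card - 2) * w2 f := by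
  set e₁ := s(l₁, u₁) with he₁
  set e₂ := s(l₂, u₂) with he₂
  set F₀ := (γ.erase e₁).erase e₂ with hF₀
  have hcard : F₀.card = γ.card - 2 := by
    rw [hF₀, Finset.card_erase_of_mem (Finset.mem_erase.2 ⟨hdiff.symm, h₂⟩),
      Finset.card_erase_of_mem h₁]
    omega
  have hγ : ∀ x : V → Ω, ∏ e ∈ γ, f (e.map x) =
      (∏ e ∈ F₀, f (e.map x)) * f (e₂.map x) * f (e₁.map x) := by
    intro x
    rw [← Finset.mul_prod_erase γ _ h₁, ← Finset.mul_prod_erase (γ.erase e₁) _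
      (Finset.mem_erase.2 ⟨hdiff.symm, h₂⟩)]
    ring
  have hl₁F : ∀ e ∈ F₀, l₁ ∉ e := by
    intro e he hl
    simp only [hF₀, Finset.mem_erase] at he
    exact he.2.1 (hleaf₁ e he.2.2 hl)
  have hl₂F : ∀ e ∈ F₀, l₂ ∉ e := by
    intro e he hl
    simp only [hF₀, Finset.mem_erase] at he
    exact he.1 (hleaf₂ e he.2.2 hl)
  have hl₁e₂ : l₁ ∉ e₂ := fun hl => hdiff (hleaf₁ e₂ h₂ hl).symm
  have hl₂u₁ : l₂ ≠ u₁ := by
    intro h
    apply hdiff
    apply hleaf₂ e₁ h₁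
    rw [he₁, h]; simp
  have st1 : tt f γ = 𝔼 x : V → Ω, ((∏ e ∈ F₀, f (e.map x)) * f (e₂.map x)) * dd f (x u₁) := by
    unfold tt
    rw [← leaf_int f l₁ u₁ hne₁ (fun x => (∏ e ∈ F₀, f (e.map x)) * f (e₂.map x))]
    · refine Finset.expect_congr rfl ?_
      intro x _
      rw [hγ]
    · intro x a
      rw [prod_update_eq f F₀ l₁ hl₁F]
      congr 2
      apply map_congr_of_mem
      intro v hv
      have : v ≠ l₁ := fun h => hl₁e₂ (h ▸ hv)
      simp [update_of_ne this]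
  have st2 : tt f γ = 𝔼 x : V → Ω, ((∏ e ∈ F₀, f (e.map x)) * dd f (x u₁)) * dd f (x u₂) := by
    rw [st1]
    rw [← leaf_int f l₂ u₂ hne₂ (fun x => (∏ e ∈ F₀, f (e.map x)) * dd f (x u₁))]
    · refine Finset.expect_congr rfl ?_
      intro x _
      ring
    · intro x a
      rw [prod_update_eq f F₀ l₂ hl₂F, update_of_ne hl₂u₁.symm]
  rw [st2]
  refine (abs_expect_le _ _).trans ?_
  calc 𝔼 x : V → Ω, |(∏ e ∈ F₀, f (e.map x)) * dd f (x u₁) * dd f (x u₂)|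
      ≤ 𝔼 x : V → Ω, ε ^ F₀.card * (|dd f (x u₁)| * |dd f (x u₂)|) := by
        apply Finset.expect_le_expect
        intro x _
        rw [abs_mul, abs_mul, mul_assoc]
        exact mul_le_mul_of_nonneg_right (prod_abs_le f ε hε hf F₀ x) (by positivity)
    _ = ε ^ F₀.card * 𝔼 x : V → Ω, (|dd f (x u₁)| * |dd f (x u₂)|) := by
        rw [mul_expect]
    _ ≤ ε ^ (γ.card - 2) * w2 f := by
        rw [hcard]
        exact mul_le_mul_of_nonneg_left (expect_abs_mul_le f u₁ u₂) (by positivity)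

lemma cherry_eq (f : Sym2 Ω → ℝ) (l₁ l₂ u : V) (hne₁ : l₁ ≠ u) (hne₂ : l₂ ≠ u) (hl : l₁ ≠ l₂) :
    tt f ({s(l₁, u), s(l₂, u)} : Finset (Sym2 V)) = w2 f := by
  have hdiff : s(l₁, u) ≠ s(l₂, u) := by
    intro h
    simp only [Sym2.eq_iff] at h
    rcases h with ⟨h, _⟩ | ⟨h, _⟩
    · exact hl h
    · exact hne₁ h
  unfold tt
  rw [show (𝔼 x : V → Ω, ∏ e ∈ ({s(l₁, u), s(l₂, u)} : Finset (Sym2 V)), f (e.map x)) =
      𝔼 x : V → Ω, f ((s(l₂, u)).map x) * f ((s(l₁, u)).map x) from ?_]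
  · rw [leaf_int f l₁ u hne₁ (fun x => f ((s(l₂, u)).map x))]
    · have : 𝔼 x : V → Ω, f ((s(l₂, u)).map x) * dd f (x u) =
          𝔼 x : V → Ω, dd f (x u) * f ((s(l₂, u)).map x) := by
        refine Finset.expect_congr rfl ?_
        intro x _; ring
      rw [this, leaf_int f l₂ u hne₂ (fun x => dd f (x u))]
      · have := expect_coord (Ω := Ω) (fun a => dd f a ^ 2) u
        unfold w2
        rw [← this]
        refine Finset.expect_congr rfl ?_
        intro x _; ring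
      · intro x a
        simp only [update_of_ne hne₂.symm]
    · intro x a
      congr 1
      apply map_congr_of_mem
      intro v hv
      simp only [Sym2.mem_iff] at hv
      have : v ≠ l₁ := by
        rcases hv with rfl | rfl
        · exact hl.symm
        · exact hne₁.symm
      simp [update_of_ne this]
  · refine Finset.expect_congr rfl ?_
    intro x _
    rw [Finset.prod_pair hdiff]
    ring

/-- One leaf together with an induced even cycle. -/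
lemma leaf_cycle (f : Sym2 Ω → ℝ) (ε : ℝ) (hε : 0 < ε) (hf : ∀ p, |f p| ≤ ε)
    (n l : ℕ) (hnl : n = 2 * l) (hl : 0 < l) (c : ℕ → V) (h3 : 3 ≤ n) (hcl : c n = c 0)
    (hinj : ∀ i < n, ∀ j < n, c i = c j → i = j)
    (F'' : Finset (Sym2 V))
    (hF'' : ∀ e ∈ F'', ∀ i < n, ∀ j < n, c i ∈ e → c j ∈ e → i = j)
    (hdisj : Disjoint (cycEdges n c) F'')
    (ℓ u : V) (hℓu : ℓ ≠ u) (hℓ : ∀ e ∈ cycEdges n c ∪ F'', ℓ ∉ e)
    (hnot : s(ℓ, u) ∉ cycEdges n c ∪ F'') :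
    tt f (insert s(ℓ, u) (cycEdges n c ∪ F'')) ^ 2 ≤
      w2 f * (ε ^ (n + 2 * F''.card) * trc (normA f) (List.replicate n (1 : Ω → ℝ))) := by
  set F' := cycEdges n c ∪ F'' with hF'
  set T := trc (normA f) (List.replicate n (1 : Ω → ℝ)) with hT
  set ψ : (V → Ω) → ℝ := fun x => ∏ e ∈ F', f (e.map x) with hψ
  have hF'card : F'.card = n + F''.card := by
    rw [hF', Finset.card_union_of_disjoint hdisj, card_cycEdges h3 hcl hinj]
  have hψb : ∀ x, |ψ x| ≤ ε ^ F'.card := prod_abs_le f ε hε.le hf F'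
  -- integrate the leaf
  have st1 : tt f (insert s(ℓ, u) F') = 𝔼 x : V → Ω, ψ x * dd f (x u) := by
    unfold tt
    rw [← leaf_int f ℓ u hℓu ψ]
    · refine Finset.expect_congr rfl ?_
      intro x _
      rw [Finset.prod_insert hnot]
      simp only [hψ]
      ring
    · intro x a
      exact prod_update_eq f F' ℓ hℓ x a
  -- the function `G`
  set G : Ω → ℝ := fun a => 𝔼 x : V → Ω, ψ (update x u a) with hG
  have hGb : ∀ a, |G a| ≤ ε ^ F'.card := by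
    intro a
    refine (abs_expect_le _ _).trans ?_
    exact Finset.expect_le univ_nonempty (fun x _ => hψb _)
  have st2 : tt f (insert s(ℓ, u) F') = 𝔼 a : Ω, G a * dd f a := by
    rw [st1, expect_update _ u]
    simp only [update_self]
    rw [expect_comm]
    refine Finset.expect_congr rfl ?_
    intro a _
    rw [hG, expect_mul]
  have st3 : 𝔼 a : Ω, G a ^ 2 = 𝔼 x : V → Ω, G (x u) * ψ x := by
    rw [expect_update _ u]
    simp only [update_self]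
    rw [expect_comm]
    refine Finset.expect_congr rfl ?_
    intro a _
    rw [← mul_expect, pow_two]
  -- apply the cycle bound
  set E := ε ^ F'.card with hE
  have hE0 : 0 < E := by positivity
  have hb := cycle_bound f ε hε hf n l hnl hl c h3 hcl hinj F'' hF'' hdisj
    (fun a => G a / E) (fun a => by
      rw [abs_div, abs_of_pos hE0]; exact (div_le_one hE0).2 (hGb a)) u
  have st4 : 𝔼 x : V → Ω, G (x u) * ψ x =
      E * 𝔼 x : V → Ω, (G (x u) / E) * ∏ e ∈ cycEdges n c ∪ F'', f (e.map x) := by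
    rw [mul_expect]
    refine Finset.expect_congr rfl ?_
    intro x _
    simp only [hψ]
    field_simp
    rfl
  have st5 : 𝔼 a : Ω, G a ^ 2 ≤ E * (ε ^ F''.card * T) := by
    rw [st3, st4]
    apply mul_le_mul_of_nonneg_left _ hE0.le
    exact (le_abs_self _).trans hb
  rw [st2]
  have hcs := Finset.expect_mul_sq_le_sq_mul_sq (univ : Finset Ω) G (dd f)
  have hw : w2 f = 𝔼 a : Ω, dd f a ^ 2 := rfl
  rw [← hw] at hcs
  have e5 : E * (ε ^ F''.card * T) = ε ^ (n + 2 * F''.card) * T := by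
    rw [hE, hF'card, ← mul_assoc, ← pow_add]
    congr 2
    omega
  rw [e5] at st5
  calc (𝔼 a : Ω, G a * dd f a) ^ 2 ≤ (𝔼 a : Ω, G a ^ 2) * w2 f := hcs
    _ ≤ (ε ^ (n + 2 * F''.card) * T) * w2 f :=
        mul_le_mul_of_nonneg_right st5 (w2_nonneg f)
    _ = _ := by ring

end

end Vale.Agent.Lib.P050
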