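import Vale.Agent.Lib.P050.Expl

set_option linter.unusedSectionVars false
set_option linter.unusedVariables false

namespace Vale.Agent.Lib.P050

noncomputable section

open Finset Function
open scoped BigOperators Classical

variable {V Ω : Type*} [Fintype V] [DecidableEq V] [Fintype Ω] [DecidableEq Ω] [Nonempty Ω]

/-- Partition function on an edge set. -/
def ZZ (f : Sym2 Ω → ℝ) (F : Finset (Sym2 V)) : ℝ := 𝔼 x : V → Ω, ∏ e ∈ F, (1 + f (e.map x))

lemma ZZ_eq_sum (f : Sym2 Ω → ℝ) (F : Finset (Sym2 V)) :
    ZZ f F = ∑ F' ∈ F.powerset, tt f F' := by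
  unfold ZZ tt
  simp only [Finset.prod_one_add]
  rw [Finset.expect_sum_comm]

lemma touches_self (g : Sym2 V) {S : Finset (Sym2 V)} (hg : g ∈ S) : Touches g S := by
  induction g using Sym2.ind with
  | _ a b => exact ⟨a, by simp, _, hg, by simp⟩

lemma tt_union (f : Sym2 Ω → ℝ) (S F' : Finset (Sym2 V)) (h : ∀ g ∈ F', ¬ Touches g S) :
    tt f (S ∪ F') = tt f S * tt f F' := by
  have hdisj : Disjoint S F' := by
    rw [Finset.disjoint_right]
    intro g hg hgS
    exact h g hg (touches_self g hgS)
  unfold tt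
  simp only [Finset.prod_union hdisj]
  rw [expect_merge (vset S)]
  have e1 : ∀ x₀ y : V → Ω, ∏ e ∈ S, f (e.map (merge (vset S) y x₀)) = ∏ e ∈ S, f (e.map y) := by
    intro x₀ y
    apply Finset.prod_congr rfl
    intro e he
    congr 1
    apply map_congr_of_mem
    intro v hv
    have : v ∈ vset S := mem_vset.2 ⟨e, he, hv⟩
    simp [merge, this]
  have e2 : ∀ x₀ y : V → Ω, ∏ e ∈ F', f (e.map (merge (vset S) y x₀)) = ∏ e ∈ F', f (e.map x₀) := by
    intro x₀ y
    apply Finset.prod_congr rfl
    intro e he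
    congr 1
    apply map_congr_of_mem
    intro v hv
    have : v ∉ vset S := fun hvS => h e he (touches_iff.2 ⟨v, hv, hvS⟩)
    simp [merge, this]
  simp only [e1, e2]
  rw [Finset.expect_mul_expect]
  rw [expect_comm]

/-- Edges avoiding the vertices of `γ`. -/
def restE (U γ : Finset (Sym2 V)) : Finset (Sym2 V) := U.filter (fun g => ¬ Touches g γ)

lemma explore_identity (f : Sym2 Ω → ℝ) (U : Finset (Sym2 V)) :
    ∀ (N : ℕ) (S B : Finset (Sym2 V)), S ⊆ U → Disjoint S B → (∀ g ∈ B, Touches g S) →
      (U \ (S ∪ B)).card ≤ N →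
      ∑ F ∈ U.powerset.filter (fun F => S ⊆ F ∧ Disjoint F B), tt f F =
        ∑ γ ∈ explSet U S B, tt f γ * ZZ f (restE U γ) := by
  have hbase : ∀ S B : Finset (Sym2 V), S ⊆ U → Disjoint S B → (∀ g ∈ B, Touches g S) →
      bdry U S B = ∅ →
      ∑ F ∈ U.powerset.filter (fun F => S ⊆ F ∧ Disjoint F B), tt f F =
        ∑ γ ∈ explSet U S B, tt f γ * ZZ f (restE U γ) := by
    intro S B hS hd hB h
    rw [expl_base hS hd h, Finset.sum_singleton, ZZ_eq_sum, Finset.mul_sum]
    have hnb : ∀ g ∈ U, g ∉ S → g ∉ B → ¬ Touches g S := by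
      intro g hg hgS hgB hT
      have : g ∈ bdry U S B := mem_bdry.2 ⟨hg, hgS, hgB, hT⟩
      rw [h] at this
      simp at this
    refine Finset.sum_bij' (fun F _ => F \ S) (fun F' _ => S ∪ F') ?_ ?_ ?_ ?_ ?_
    · intro F hF
      simp only [Finset.mem_filter, Finset.mem_powerset] at hF
      simp only [Finset.mem_powerset]
      intro g hg
      simp only [Finset.mem_sdiff] at hg
      simp only [restE, Finset.mem_filter]
      have hgB : g ∉ B := fun hb => (Finset.disjoint_left.1 hF.2.2) hg.1 hb
      exact ⟨hF.1 hg.1, hnb g (hF.1 hg.1) hg.2 hgB⟩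
    · intro F' hF'
      simp only [Finset.mem_powerset] at hF'
      simp only [Finset.mem_filter, Finset.mem_powerset]
      refine ⟨Finset.union_subset hS (hF'.trans (Finset.filter_subset _ _)),
        Finset.subset_union_left, ?_⟩
      rw [Finset.disjoint_union_left]
      refine ⟨hd, ?_⟩
      rw [Finset.disjoint_left]
      intro g hg hgB
      have := hF' hg
      simp only [restE, Finset.mem_filter] at this
      exact this.2 (hB g hgB)
    · intro F hF
      simp only [Finset.mem_filter, Finset.mem_powerset] at hF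
      exact Finset.union_sdiff_of_subset hF.2.1
    · intro F' hF'
      simp only [Finset.mem_powerset] at hF'
      have : Disjoint S F' := by
        rw [Finset.disjoint_right]
        intro g hg hgS
        have := hF' hg
        simp only [restE, Finset.mem_filter] at this
        exact this.2 (touches_self g hgS)
      exact Finset.union_sdiff_cancel_left this
    · intro F hF
      simp only [Finset.mem_filter, Finset.mem_powerset] at hF
      have h1 : S ∪ (F \ S) = F := Finset.union_sdiff_of_subset hF.2.1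
      have h2 := tt_union f S (F \ S) (by
        intro g hg
        simp only [Finset.mem_sdiff] at hg
        have hgB : g ∉ B := fun hb => (Finset.disjoint_left.1 hF.2.2) hg.1 hb
        exact hnb g (hF.1 hg.1) hg.2 hgB)
      rw [h1] at h2
      exact h2
  have hstep : ∀ (N : ℕ), (∀ (S B : Finset (Sym2 V)), S ⊆ U → Disjoint S B →
      (∀ g ∈ B, Touches g S) → (U \ (S ∪ B)).card ≤ N →
      ∑ F ∈ U.powerset.filter (fun F => S ⊆ F ∧ Disjoint F B), tt f F =
        ∑ γ ∈ explSet U S B, tt f γ * ZZ f (restE U γ)) →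
      ∀ (S B : Finset (Sym2 V)) (g : Sym2 V), S ⊆ U → Disjoint S B → (∀ g ∈ B, Touches g S) →
      (U \ (S ∪ B)).card ≤ N + 1 → g ∈ bdry U S B →
      ∑ F ∈ U.powerset.filter (fun F => S ⊆ F ∧ Disjoint F B), tt f F =
        ∑ γ ∈ explSet U S B, tt f γ * ZZ f (restE U γ) := by
    intro N ih S B g hS hd hB hN hg
    obtain ⟨hgE, hgS, hgB, hT⟩ := mem_bdry.1 hg
    have hmem : g ∈ U \ (S ∪ B) := by
      simp [hgE, hgS, hgB]
    have hc1 : (U \ (S ∪ insert g B)).card ≤ N := by
      have : U \ (S ∪ insert g B) = (U \ (S ∪ B)).erase g := by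
        ext h
        simp only [Finset.mem_sdiff, Finset.mem_union, Finset.mem_insert, Finset.mem_erase]
        tauto
      rw [this, Finset.card_erase_of_mem hmem]
      omega
    have hc2 : (U \ (insert g S ∪ B)).card ≤ N := by
      have : U \ (insert g S ∪ B) = (U \ (S ∪ B)).erase g := by
        ext h
        simp only [Finset.mem_sdiff, Finset.mem_union, Finset.mem_insert, Finset.mem_erase]
        tauto
      rw [this, Finset.card_erase_of_mem hmem]
      omega
    have hd1 : Disjoint S (insert g B) := by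
      rw [Finset.disjoint_insert_right]
      exact ⟨hgS, hd⟩
    have hd2 : Disjoint (insert g S) B := by
      rw [Finset.disjoint_insert_left]
      exact ⟨hgB, hd⟩
    have hB1 : ∀ h ∈ insert g B, Touches h S := by
      intro h hh
      rcases Finset.mem_insert.1 hh with rfl | hh
      · exact hT
      · exact hB h hh
    have hB2 : ∀ h ∈ B, Touches h (insert g S) := fun h hh =>
      (hB h hh).mono (Finset.subset_insert _ _)
    have h1 := ih S (insert g B) hS hd1 hB1 hc1
    have h2 := ih (insert g S) B (Finset.insert_subset hgE hS) hd2 hB2 hc2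
    rw [expl_sum_step hg, ← h1, ← h2]
    have hunion : U.powerset.filter (fun F => S ⊆ F ∧ Disjoint F B) =
        U.powerset.filter (fun F => S ⊆ F ∧ Disjoint F (insert g B)) ∪
        U.powerset.filter (fun F => insert g S ⊆ F ∧ Disjoint F B) := by
      ext F
      simp only [Finset.mem_filter, Finset.mem_union, Finset.mem_powerset,
        Finset.disjoint_insert_right, Finset.insert_subset_iff]
      tauto
    have hdisj : Disjoint (U.powerset.filter (fun F => S ⊆ F ∧ Disjoint F (insert g B)))
        (U.powerset.filter (fun F => insert g S ⊆ F ∧ Disjoint F B)) := by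
      rw [Finset.disjoint_left]
      intro F h3 h4
      simp only [Finset.mem_filter, Finset.mem_powerset,
        Finset.disjoint_insert_right, Finset.insert_subset_iff] at h3 h4
      exact h3.2.2.1 h4.2.1.1
    rw [hunion, Finset.sum_union hdisj]
  intro N
  induction N with
  | zero =>
    intro S B hS hd hB hN
    by_cases h : bdry U S B = ∅
    · exact hbase S B hS hd hB h
    · exfalso
      obtain ⟨g, hg⟩ := Finset.nonempty_iff_ne_empty.2 h
      obtain ⟨hgE, hgS, hgB, hT⟩ := mem_bdry.1 hg
      have hmem : g ∈ U \ (S ∪ B) := by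
        simp [hgE, hgS, hgB]
      have := Finset.card_pos.2 ⟨g, hmem⟩
      omega
  | succ N ih =>
    intro S B hS hd hB hN
    by_cases h : bdry U S B = ∅
    · exact hbase S B hS hd hB h
    · obtain ⟨g, hg⟩ := Finset.nonempty_iff_ne_empty.2 h
      exact hstep N ih S B g hS hd hB hN hg

lemma ZZ_insert (f : Sym2 Ω → ℝ) (E' : Finset (Sym2 V)) (e : Sym2 V) (he : e ∉ E') :
    ZZ f (insert e E') = ZZ f E' +
      ∑ γ ∈ explSet (insert e E') {e} ∅, tt f γ * ZZ f (restE (insert e E') γ) := by
  have h := explore_identity f (insert e E') _ {e} ∅ (by simp) (by simp) (by simp) le_rfl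
  rw [← h, ZZ_eq_sum, ZZ_eq_sum, ← Finset.sum_filter_add_sum_filter_not (insert e E').powerset
    (fun F => e ∈ F)]
  rw [add_comm]
  congr 1
  · apply Finset.sum_congr _ (fun _ _ => rfl)
    ext F
    simp only [Finset.mem_filter, Finset.mem_powerset]
    constructor
    · rintro ⟨h1, h2⟩
      intro g hg
      rcases Finset.mem_insert.1 (h1 hg) with rfl | h3
      · exact absurd hg h2
      · exact h3
    · intro h1
      exact ⟨h1.trans (Finset.subset_insert _ _), fun h2 => he (h1 h2)⟩
  · apply Finset.sum_congr _ (fun _ _ => rfl)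
    ext F
    simp

lemma ZZ_pos (f : Sym2 Ω → ℝ) (ε : ℝ) (hε : ε < 1) (hf : ∀ p, |f p| ≤ ε) (F : Finset (Sym2 V)) :
    0 < ZZ f F := by
  apply Finset.expect_pos _ univ_nonempty
  intro x _
  apply Finset.prod_pos
  intro e _
  have := (abs_le.1 (hf (e.map x))).1
  linarith

lemma ZZ_bounds (f : Sym2 Ω → ℝ) (ε : ℝ) (hε : ε < 1) (hf : ∀ p, |f p| ≤ ε)
    (F G : Finset (Sym2 V)) (hFG : F ⊆ G) :
    (1 - ε) ^ (G \ F).card * ZZ f F ≤ ZZ f G ∧ ZZ f G ≤ (1 + ε) ^ (G \ F).card * ZZ f F := by
  have hε0 : 0 ≤ ε := (abs_nonneg _).trans (hf s(Classical.arbitrary Ω, Classical.arbitrary Ω))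
  unfold ZZ
  have hfac : ∀ x : V → Ω, ∏ e ∈ G, (1 + f (e.map x)) =
      (∏ e ∈ G \ F, (1 + f (e.map x))) * ∏ e ∈ F, (1 + f (e.map x)) := by
    intro x
    rw [Finset.prod_sdiff hFG]
  have hF0 : ∀ x : V → Ω, 0 ≤ ∏ e ∈ F, (1 + f (e.map x)) := by
    intro x
    apply Finset.prod_nonneg
    intro e _
    have := (abs_le.1 (hf (e.map x))).1
    linarith
  constructor
  · rw [mul_expect]
    apply Finset.expect_le_expect
    intro x _
    rw [hfac]
    apply mul_le_mul_of_nonneg_right _ (hF0 x)
    calc (1 - ε) ^ (G \ F).card = ∏ _e ∈ G \ F, (1 - ε) := by simp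
      _ ≤ ∏ e ∈ G \ F, (1 + f (e.map x)) := by
        apply Finset.prod_le_prod
        · intro _ _; linarith
        · intro e _
          have := (abs_le.1 (hf (e.map x))).1
          linarith
  · rw [mul_expect]
    apply Finset.expect_le_expect
    intro x _
    rw [hfac]
    apply mul_le_mul_of_nonneg_right _ (hF0 x)
    calc ∏ e ∈ G \ F, (1 + f (e.map x)) ≤ ∏ _e ∈ G \ F, (1 + ε) := by
          apply Finset.prod_le_prod
          · intro e _
            have := (abs_le.1 (hf (e.map x))).1
            linarith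
          · intro e _
            have := (abs_le.1 (hf (e.map x))).2
            linarith
      _ = (1 + ε) ^ (G \ F).card := by simp

end

end Vale.Agent.Lib.P050
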