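import Vale.Agent.Lib.P050.Poly

set_option linter.unusedSectionVars false
set_option linter.unusedVariables false

namespace Vale.Agent.Lib.P050

noncomputable section

open Finset Function
open scoped BigOperators Classical

variable {V Ω : Type*} [Fintype V] [DecidableEq V] [Fintype Ω] [DecidableEq Ω] [Nonempty Ω]

/-- Edge sets of cycles. -/
def isCycSet (γ : Finset (Sym2 V)) : Prop := ∃ n c, IsCyc γ n c ∧ cycEdges n c = γ

/-- Main polymers. -/
def isMain (γ : Finset (Sym2 V)) : Prop := γ.card = 2 ∨ isCycSet γ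

/-- The exponent attached to a polymer. -/
def ell (κ : ℝ) (f : Sym2 Ω → ℝ) (γ : Finset (Sym2 V)) : ℝ :=
  if isMain γ then (2 / 3) * tt f γ * (κ ^ (vset γ).card)⁻¹
  else -((4 / 3) * |tt f γ| * κ ^ (vset γ).card)

lemma exp_bound (a b : ℝ) (ha : 0 ≤ a) (hb : 0 ≤ b) (hab : a + b ≤ 3 / 16) :
    Real.exp ((2 / 3) * a - (4 / 3) * b) ≤ 1 + a - b := by
  set x := (2 / 3) * a - (4 / 3) * b with hx
  have h1 : |x| ≤ 1 := by
    rw [abs_le]
    constructor <;> nlinarith
  have h2 := Real.abs_exp_sub_one_sub_id_le h1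
  have h3 := (abs_le.1 h2).2
  have h4 : x ^ 2 ≤ (1 / 3) * (a + b) := by
    have h5 : x ^ 2 ≤ ((4 / 3) * (a + b)) ^ 2 := by
      apply sq_le_sq'
      · nlinarith
      · nlinarith
    have h6 : ((4 / 3) * (a + b)) ^ 2 ≤ (1 / 3) * (a + b) := by
      nlinarith
    exact h5.trans h6
  nlinarith

/-- The key step: adding an edge multiplies the partition function by at least an exponential. -/
lemma local_step (f : Sym2 Ω → ℝ) (ε κ : ℝ) (hε1 : ε < 1) (hf : ∀ p, |f p| ≤ ε) (Δ : ℕ)
    (hκ1 : 1 ≤ κ) (hκ2 : 1 ≤ (1 - ε) ^ Δ * κ) (hκ3 : (1 + ε) ^ Δ ≤ κ)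
    (E' : Finset (Sym2 V)) (e : Sym2 V) (he : e ∉ E')
    (hdeg : ∀ v, ((insert e E').filter (fun h => v ∈ h)).card ≤ Δ)
    (hmain : ∀ γ ∈ explSet (insert e E') {e} ∅, isMain γ → 0 ≤ tt f γ)
    (hA : ∑ γ ∈ explSet (insert e E') {e} ∅, |tt f γ| * κ ^ (vset γ).card ≤ 3 / 16) :
    ZZ f E' * Real.exp (∑ γ ∈ explSet (insert e E') {e} ∅, ell κ f γ) ≤ ZZ f (insert e E') := by
  have hε0 : 0 ≤ ε := (abs_nonneg _).trans (hf s(Classical.arbitrary Ω, Classical.arbitrary Ω))
  set U := insert e E' with hU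
  set X := explSet U {e} ∅ with hX
  have hZpos : 0 < ZZ f E' := ZZ_pos f ε hε1 hf E'
  set r : Finset (Sym2 V) → ℝ := fun γ => ZZ f (restE U γ) / ZZ f E' with hr
  have hκ0 : 0 < κ := by linarith
  -- bounds on the ratios
  have hrb : ∀ γ ∈ X, (κ ^ (vset γ).card)⁻¹ ≤ r γ ∧ r γ ≤ κ ^ (vset γ).card := by
    intro γ hγ
    obtain ⟨h1, h2, _, _⟩ := mem_explSet.1 hγ
    have heγ : e ∈ γ := h2 (by simp)
    set v := (vset γ).card with hv
    have hsub : restE U γ ⊆ E' := by
      intro g hg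
      simp only [restE, Finset.mem_filter] at hg
      rcases Finset.mem_insert.1 hg.1 with rfl | h3
      · exact absurd (touches_self _ heγ) hg.2
      · exact h3
    have hq : (E' \ restE U γ).card ≤ Δ * v := by
      have hs2 : E' \ restE U γ ⊆ (vset γ).biUnion (fun w => U.filter (fun h => w ∈ h)) := by
        intro g hg
        simp only [Finset.mem_sdiff, restE, Finset.mem_filter, not_and, not_not] at hg
        have hgU : g ∈ U := Finset.mem_insert_of_mem hg.1
        obtain ⟨w, hw, hwγ⟩ := touches_iff.1 (hg.2 hgU)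
        simp only [Finset.mem_biUnion, Finset.mem_filter]
        exact ⟨w, hwγ, hgU, hw⟩
      calc _ ≤ _ := Finset.card_le_card hs2
        _ ≤ ∑ w ∈ vset γ, (U.filter (fun h => w ∈ h)).card := Finset.card_biUnion_le
        _ ≤ ∑ _w ∈ vset γ, Δ := Finset.sum_le_sum (fun w _ => hdeg w)
        _ = Δ * v := by simp [mul_comm, hv]
    set q := (E' \ restE U γ).card with hqdef
    obtain ⟨b1, b2⟩ := ZZ_bounds f ε hε1 hf (restE U γ) E' hsub
    have hrp : 0 < ZZ f (restE U γ) := ZZ_pos f ε hε1 hf _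
    have h1ε : 0 < 1 - ε := by linarith
    have h3 : (κ ^ v)⁻¹ ≤ (1 - ε) ^ q := by
      have h4 : (1 - ε) ^ (Δ * v) ≤ (1 - ε) ^ q :=
        pow_le_pow_of_le_one h1ε.le (by linarith) hq
      refine le_trans ?_ h4
      rw [pow_mul]
      rw [← inv_pow]
      apply pow_le_pow_left₀ (by positivity)
      rw [inv_le_iff_one_le_mul₀ hκ0]
      linarith
    have h5 : (1 + ε) ^ q ≤ κ ^ v := by
      have h6 : (1 + ε) ^ q ≤ (1 + ε) ^ (Δ * v) :=
        pow_le_pow_right₀ (by linarith) hq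
      refine h6.trans ?_
      rw [pow_mul]
      exact pow_le_pow_left₀ (by positivity) hκ3 v
    constructor
    · -- lower bound on the ratio
      simp only [hr]
      rw [le_div_iff₀ hZpos]
      have h7 : ZZ f E' ≤ κ ^ v * ZZ f (restE U γ) :=
        b2.trans (mul_le_mul_of_nonneg_right h5 hrp.le)
      rw [inv_mul_le_iff₀ (by positivity)]
      exact h7
    · simp only [hr]
      rw [div_le_iff₀ hZpos]
      have h8 : (κ ^ v)⁻¹ * ZZ f (restE U γ) ≤ ZZ f E' :=
        (mul_le_mul_of_nonneg_right h3 hrp.le).trans b1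
      rw [inv_mul_le_iff₀ (by positivity)] at h8
      exact h8
  -- the identity
  have hid : ZZ f U = ZZ f E' * (1 + ∑ γ ∈ X, tt f γ * r γ) := by
    rw [hU, ZZ_insert f E' e he, mul_add, mul_one, Finset.mul_sum]
    congr 1
    apply Finset.sum_congr rfl
    intro γ _
    simp only [hr]
    field_simp
    rfl
  -- the two parts
  set a := ∑ γ ∈ X, (if isMain γ then tt f γ * (κ ^ (vset γ).card)⁻¹ else 0) with ha
  set b := ∑ γ ∈ X, (if isMain γ then 0 else |tt f γ| * κ ^ (vset γ).card) with hb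
  have ha0 : 0 ≤ a := by
    apply Finset.sum_nonneg
    intro γ hγ
    split_ifs with h
    · have := hmain γ hγ h
      positivity
    · exact le_rfl
  have hb0 : 0 ≤ b := by
    apply Finset.sum_nonneg
    intro γ hγ
    split_ifs with h
    · exact le_rfl
    · positivity
  have hsum : ∑ γ ∈ X, ell κ f γ = (2 / 3) * a - (4 / 3) * b := by
    rw [ha, hb, Finset.mul_sum, Finset.mul_sum, ← Finset.sum_sub_distrib]
    apply Finset.sum_congr rfl
    intro γ _
    unfold ell
    split_ifs with h <;> ring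
  have hab : a + b ≤ 3 / 16 := by
    refine le_trans ?_ hA
    rw [ha, hb, ← Finset.sum_add_distrib]
    apply Finset.sum_le_sum
    intro γ hγ
    split_ifs with h
    · have ht := hmain γ hγ h
      rw [add_zero, abs_of_nonneg ht]
      apply mul_le_mul_of_nonneg_left _ ht
      have h1 : 1 ≤ κ ^ (vset γ).card := one_le_pow₀ hκ1
      exact (inv_le_one_of_one_le₀ h1).trans h1
    · rw [zero_add]
  have hτ : a - b ≤ ∑ γ ∈ X, tt f γ * r γ := by
    rw [ha, hb, ← Finset.sum_sub_distrib]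
    apply Finset.sum_le_sum
    intro γ hγ
    obtain ⟨h1, h2⟩ := hrb γ hγ
    split_ifs with h
    · have ht := hmain γ hγ h
      rw [sub_zero]
      exact mul_le_mul_of_nonneg_left h1 ht
    · rw [zero_sub]
      have hr0 : 0 ≤ r γ := (by positivity : 0 ≤ (κ ^ (vset γ).card)⁻¹).trans h1
      have h3 : -(|tt f γ| * r γ) ≤ tt f γ * r γ := by
        have := neg_abs_le (tt f γ)
        nlinarith
      have h4 : |tt f γ| * r γ ≤ |tt f γ| * κ ^ (vset γ).card :=
        mul_le_mul_of_nonneg_left h2 (abs_nonneg _)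
      linarith
  rw [hid, hsum]
  apply mul_le_mul_of_nonneg_left _ hZpos.le
  have := exp_bound a b ha0 hb0 hab
  linarith

/-- Connected nonempty subsets. -/
def polys (E : Finset (Sym2 V)) : Finset (Finset (Sym2 V)) :=
  E.powerset.filter (fun γ => γ.Nonempty ∧ Conn γ)

lemma mem_polys {E γ : Finset (Sym2 V)} : γ ∈ polys E ↔ γ ⊆ E ∧ γ.Nonempty ∧ Conn γ := by
  simp [polys]

lemma polys_insert (E' : Finset (Sym2 V)) (e : Sym2 V) (he : e ∉ E') :
    polys (insert e E') = polys E' ∪ explSet (insert e E') {e} ∅ := by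
  ext γ
  simp only [Finset.mem_union, mem_polys, mem_explSet]
  constructor
  · rintro ⟨h1, h2, h3⟩
    by_cases heγ : e ∈ γ
    · right
      exact ⟨h1, by simpa using heγ, by simp, (sconn_singleton_iff heγ).2 h3⟩
    · left
      refine ⟨?_, h2, h3⟩
      intro g hg
      rcases Finset.mem_insert.1 (h1 hg) with rfl | h4
      · exact absurd hg heγ
      · exact h4
  · rintro (⟨h1, h2, h3⟩ | ⟨h1, h2, h3, h4⟩)
    · exact ⟨h1.trans (Finset.subset_insert _ _), h2, h3⟩
    · have heγ : e ∈ γ := h2 (by simp)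
      exact ⟨h1, ⟨e, heγ⟩, (sconn_singleton_iff heγ).1 h4⟩

lemma polys_insert_disj (E' : Finset (Sym2 V)) (e : Sym2 V) (he : e ∉ E') :
    Disjoint (polys E') (explSet (insert e E') {e} ∅) := by
  rw [Finset.disjoint_left]
  intro γ h1 h2
  obtain ⟨h3, _, _⟩ := mem_polys.1 h1
  obtain ⟨_, h4, _, _⟩ := mem_explSet.1 h2
  exact he (h3 (h4 (by simp)))

lemma expl_subset_polys (E' : Finset (Sym2 V)) (e : Sym2 V) (he : e ∉ E') :
    explSet (insert e E') {e} ∅ ⊆ polys (insert e E') := by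
  rw [polys_insert E' e he]
  exact Finset.subset_union_right

/-- Global lower bound on the partition function. -/
lemma global_lower (f : Sym2 Ω → ℝ) (ε κ : ℝ) (hε1 : ε < 1) (hf : ∀ p, |f p| ≤ ε) (Δ : ℕ)
    (hκ1 : 1 ≤ κ) (hκ2 : 1 ≤ (1 - ε) ^ Δ * κ) (hκ3 : (1 + ε) ^ Δ ≤ κ)
    (E : Finset (Sym2 V)) (hdeg : ∀ v, (E.filter (fun h => v ∈ h)).card ≤ Δ)
    (hmain : ∀ γ ∈ polys E, isMain γ → 0 ≤ tt f γ)
    (hA : ∀ U ⊆ E, ∀ e ∈ U, ∑ γ ∈ explSet U {e} ∅, |tt f γ| * κ ^ (vset γ).card ≤ 3 / 16) :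
    Real.exp (∑ γ ∈ polys E, ell κ f γ) ≤ ZZ f E := by
  have key : ∀ E' : Finset (Sym2 V), E' ⊆ E →
      Real.exp (∑ γ ∈ polys E', ell κ f γ) ≤ ZZ f E' := by
    intro E'
    induction E' using Finset.induction_on with
    | empty =>
      intro _
      have : polys (∅ : Finset (Sym2 V)) = ∅ := by
        ext γ
        simp only [mem_polys, Finset.subset_empty, Finset.notMem_empty, iff_false, not_and]
        rintro rfl h
        simp at h
      rw [this]
      simp [ZZ]
    | insert e E' he ih =>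
      intro hsub
      have hsub' : E' ⊆ E := (Finset.subset_insert _ _).trans hsub
      have hdeg' : ∀ v, ((insert e E').filter (fun h => v ∈ h)).card ≤ Δ := fun v =>
        (Finset.card_le_card (Finset.filter_subset_filter _ hsub)).trans (hdeg v)
      have hpol : polys (insert e E') ⊆ polys E := by
        intro γ hγ
        obtain ⟨h1, h2, h3⟩ := mem_polys.1 hγ
        exact mem_polys.2 ⟨h1.trans hsub, h2, h3⟩
      have hstep := local_step f ε κ hε1 hf Δ hκ1 hκ2 hκ3 E' e he hdeg'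
        (fun γ hγ hm => hmain γ (hpol (expl_subset_polys E' e he hγ)) hm)
        (hA _ hsub e (Finset.mem_insert_self _ _))
      rw [polys_insert E' e he, Finset.sum_union (polys_insert_disj E' e he), Real.exp_add]
      refine le_trans ?_ hstep
      exact mul_le_mul_of_nonneg_right (ih hsub') (Real.exp_pos _).le
  exact key E (Finset.Subset.refl _)

end

end Vale.Agent.Lib.P050
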