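import Mathlib

set_option linter.unusedSectionVars false

namespace Vale.Agent.Lib.P050

open Finset Matrix

variable {Ω : Type*} [Fintype Ω] [DecidableEq Ω]

/-- One factor of a twisted trace. -/
def stp (A : Matrix Ω Ω ℝ) (D : Ω → ℝ) : Matrix Ω Ω ℝ := Matrix.diagonal D * A

/-- Product of factors along a list. -/
def prd (A : Matrix Ω Ω ℝ) (L : List (Ω → ℝ)) : Matrix Ω Ω ℝ := (L.map (stp A)).prod

/-- The twisted trace. -/
def trc (A : Matrix Ω Ω ℝ) (L : List (Ω → ℝ)) : ℝ := (prd A L).trace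

@[simp] lemma prd_nil (A : Matrix Ω Ω ℝ) : prd A [] = 1 := by simp [prd]

@[simp] lemma prd_cons (A : Matrix Ω Ω ℝ) (d : Ω → ℝ) (L : List (Ω → ℝ)) :
    prd A (d :: L) = Matrix.diagonal d * A * prd A L := by simp [prd, stp]

lemma prd_append (A : Matrix Ω Ω ℝ) (L₁ L₂ : List (Ω → ℝ)) :
    prd A (L₁ ++ L₂) = prd A L₁ * prd A L₂ := by simp [prd, List.prod_append]

lemma trc_rot (A : Matrix Ω Ω ℝ) (L₁ L₂ : List (Ω → ℝ)) :
    trc A (L₁ ++ L₂) = trc A (L₂ ++ L₁) := by
  simp only [trc, prd_append]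
  exact Matrix.trace_mul_comm _ _

lemma mul_prd_reverse (A : Matrix Ω Ω ℝ) (hA : Aᵀ = A) (L : List (Ω → ℝ)) :
    A * prd A L.reverse = (prd A L)ᵀ * A := by
  induction L with
  | nil => simp
  | cons d L ih =>
    simp only [List.reverse_cons, prd_append, prd_cons, prd_nil, mul_one, Matrix.transpose_mul,
      Matrix.diagonal_transpose, hA]
    rw [← Matrix.mul_assoc, ih]
    simp only [Matrix.mul_assoc]

lemma trc_mirror (A : Matrix Ω Ω ℝ) (hA : Aᵀ = A) (d : Ω → ℝ) (L : List (Ω → ℝ)) :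
    trc A ((d * d) :: (L ++ (1 : Ω → ℝ) :: L.reverse)) =
      (prd A (d :: L) * (prd A (d :: L))ᵀ).trace := by
  have hone : Matrix.diagonal (1 : Ω → ℝ) = 1 := by
    ext a b; simp [Matrix.diagonal_apply, Matrix.one_apply]
  have hdd : Matrix.diagonal (d * d) = Matrix.diagonal d * Matrix.diagonal d := by
    simp [Matrix.diagonal_mul_diagonal]
  have h1 := mul_prd_reverse A hA L
  simp only [trc, prd_cons, prd_append, hone, Matrix.one_mul, hdd, Matrix.transpose_mul, Matrix.diagonal_transpose, hA]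
  set P := prd A L
  set R := prd A L.reverse
  set D := Matrix.diagonal d
  have e1 : D * D * A * (P * (A * R)) = D * (D * A * P * (Pᵀ * A)) := by
    rw [h1]; simp only [Matrix.mul_assoc]
  rw [e1, Matrix.trace_mul_comm]
  simp only [Matrix.mul_assoc]

lemma trace_mul_sq_le (X Y : Matrix Ω Ω ℝ) :
    (X * Y).trace ^ 2 ≤ (X * Xᵀ).trace * (Y * Yᵀ).trace := by
  have h := Finset.sum_mul_sq_le_sq_mul_sq (univ : Finset (Ω × Ω))
    (fun p => X p.1 p.2) (fun p => Y p.2 p.1)
  have e1 : (X * Y).trace = ∑ p : Ω × Ω, X p.1 p.2 * Y p.2 p.1 := by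
    simp [Matrix.trace, Matrix.mul_apply, Fintype.sum_prod_type]
  have e2 : (X * Xᵀ).trace = ∑ p : Ω × Ω, X p.1 p.2 ^ 2 := by
    simp [Matrix.trace, Matrix.mul_apply, Fintype.sum_prod_type, pow_two]
  have e3 : (Y * Yᵀ).trace = ∑ p : Ω × Ω, Y p.2 p.1 ^ 2 := by
    rw [Fintype.sum_prod_type_right]
    simp [Matrix.trace, Matrix.mul_apply, pow_two]
  rw [e1, e2, e3]
  exact h

lemma trace_self_nonneg (X : Matrix Ω Ω ℝ) : 0 ≤ (X * Xᵀ).trace := by
  have e2 : (X * Xᵀ).trace = ∑ p : Ω × Ω, X p.1 p.2 ^ 2 := by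
    simp [Matrix.trace, Matrix.mul_apply, Fintype.sum_prod_type, pow_two]
  rw [e2]
  exact Finset.sum_nonneg (fun _ _ => sq_nonneg _)

/-- Entries are bounded by `1`. -/
def Good (L : List (Ω → ℝ)) : Prop := ∀ D ∈ L, ∀ a, |D a| ≤ 1

lemma good_one (r : ℕ) : Good (List.replicate r (1 : Ω → ℝ)) := by
  intro D hD a
  rw [List.eq_of_mem_replicate hD]
  simp

lemma Good.mul_self {d : Ω → ℝ} (h : ∀ a, |d a| ≤ 1) : ∀ a, |(d * d) a| ≤ 1 := by
  intro a
  simp only [Pi.mul_apply, abs_mul]
  exact mul_le_one₀ (h a) (abs_nonneg _) (h a)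

/-- A crude bound on entries. -/
lemma prd_entry_le (A : Matrix Ω Ω ℝ) (L : List (Ω → ℝ)) (hL : Good L) (a b : Ω) :
    |prd A L a b| ≤ (1 + ∑ p : Ω × Ω, |A p.1 p.2|) ^ L.length := by
  set Q := 1 + ∑ p : Ω × Ω, |A p.1 p.2| with hQ
  have hQ1 : 1 ≤ Q := by
    have : 0 ≤ ∑ p : Ω × Ω, |A p.1 p.2| := Finset.sum_nonneg (fun _ _ => abs_nonneg _)
    linarith
  induction L generalizing a with
  | nil =>
    simp [Matrix.one_apply]
    split_ifs <;> simp
  | cons d L ih =>
    have hL' : Good L := fun D hD => hL D (List.mem_cons_of_mem _ hD)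
    have hd := hL d (by simp)
    simp only [prd_cons, List.length_cons, pow_succ]
    rw [Matrix.mul_assoc, Matrix.diagonal_mul]
    rw [abs_mul]
    have h2 : |(A * prd A L) a b| ≤ Q ^ L.length * Q := by
      rw [Matrix.mul_apply]
      calc |∑ c, A a c * prd A L c b| ≤ ∑ c, |A a c * prd A L c b| :=
            Finset.abs_sum_le_sum_abs _ _
        _ ≤ ∑ c, |A a c| * Q ^ L.length := by
            apply Finset.sum_le_sum
            intro c _
            rw [abs_mul]
            exact mul_le_mul_of_nonneg_left (ih hL' c) (abs_nonneg _)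
        _ = (∑ c, |A a c|) * Q ^ L.length := by rw [Finset.sum_mul]
        _ ≤ Q * Q ^ L.length := by
            apply mul_le_mul_of_nonneg_right _ (by positivity)
            have : ∑ c, |A a c| ≤ ∑ p : Ω × Ω, |A p.1 p.2| := by
              rw [Fintype.sum_prod_type]
              exact Finset.single_le_sum
                (f := fun x => ∑ y, |A x y|)
                (fun x _ => Finset.sum_nonneg (fun _ _ => abs_nonneg _)) (Finset.mem_univ a)
            linarith
        _ = Q ^ L.length * Q := by ring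
    calc |d a| * |(A * prd A L) a b| ≤ 1 * |(A * prd A L) a b| :=
          mul_le_mul_of_nonneg_right (hd a) (abs_nonneg _)
      _ ≤ Q ^ L.length * Q := by rw [one_mul]; exact h2

lemma trc_abs_le (A : Matrix Ω Ω ℝ) (L : List (Ω → ℝ)) (hL : Good L) :
    |trc A L| ≤ (Fintype.card Ω : ℝ) * (1 + ∑ p : Ω × Ω, |A p.1 p.2|) ^ L.length := by
  simp only [trc, Matrix.trace, Matrix.diag_apply]
  calc |∑ a, prd A L a a| ≤ ∑ a, |prd A L a a| := Finset.abs_sum_le_sum_abs _ _
    _ ≤ ∑ _a : Ω, (1 + ∑ p : Ω × Ω, |A p.1 p.2|) ^ L.length :=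
        Finset.sum_le_sum (fun a _ => prd_entry_le A L hL a a)
    _ = _ := by simp

/-- The class of admissible lists of length `n` with a prefix of `r` ones. -/
def Cls (n r : ℕ) (L : List (Ω → ℝ)) : Prop :=
  L.length = n ∧ Good L ∧ ∃ L', L = List.replicate r (1 : Ω → ℝ) ++ L'

lemma replicate_append_replicate' (a b : ℕ) (x : Ω → ℝ) :
    List.replicate a x ++ List.replicate b x = List.replicate (a + b) x :=
  List.replicate_append_replicate ..

lemma replicate_mirror (l' : ℕ) : List.replicate (2 * (l' + 1)) (1 : Ω → ℝ) =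
    ((1 : Ω → ℝ) * 1) :: (List.replicate l' (1 : Ω → ℝ) ++ (1 : Ω → ℝ) ::
      (List.replicate l' (1 : Ω → ℝ)).reverse) := by
  have e1 : (1 : Ω → ℝ) * 1 = 1 := by simp
  rw [e1, List.reverse_replicate]
  symm
  rw [List.eq_replicate_iff]
  constructor
  · simp; omega
  · intro b hb
    simp only [List.mem_cons, List.mem_append] at hb
    rcases hb with rfl | hb | rfl | hb
    · rfl
    · exact List.eq_of_mem_replicate hb
    · rfl
    · exact List.eq_of_mem_replicate hb

lemma Cls.mono {n r r' : ℕ} {L : List (Ω → ℝ)} (h : Cls n r L) (hr : r' ≤ r) : Cls n r' L := by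
  obtain ⟨h1, h2, L', rfl⟩ := h
  refine ⟨h1, h2, List.replicate (r - r') (1 : Ω → ℝ) ++ L', ?_⟩
  rw [← List.append_assoc, List.replicate_append_replicate]
  congr 2; omega

section chain

variable (A : Matrix Ω Ω ℝ) (hA : Aᵀ = A) (l : ℕ) (hl : 0 < l) (M : ℝ) (hM : 0 ≤ M)
  (hbd : ∀ L : List (Ω → ℝ), L.length = 2 * l → Good L → |trc A L| ≤ M)

include hA hl hbd

/-- Cauchy-Schwarz step when `Z` is nonempty: the second factor is at most `M`. -/
lemma tr_second_le (Z : List (Ω → ℝ)) (hZ : Z.length = l) (hZg : Good Z) :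
    (prd A Z * (prd A Z)ᵀ).trace ≤ M := by
  cases Z with
  | nil => simp at hZ; omega
  | cons d Z' =>
    rw [← trc_mirror A hA d Z']
    have hd := hZg d (by simp)
    have hg : Good ((d * d) :: (Z' ++ (1 : Ω → ℝ) :: Z'.reverse)) := by
      intro D hD
      simp only [List.mem_cons, List.mem_append, List.mem_reverse] at hD
      rcases hD with rfl | hD | rfl | hD
      · exact Good.mul_self hd
      · exact hZg D (by simp [hD])
      · intro a; simp
      · exact hZg D (by simp [hD])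
    have hlen : ((d * d) :: (Z' ++ (1 : Ω → ℝ) :: Z'.reverse)).length = 2 * l := by
      simp at hZ ⊢; omega
    exact (le_abs_self _).trans (hbd _ hlen hg)

/-- Final step: a prefix of `l` ones. -/
lemma step_top (Z : List (Ω → ℝ)) (hZ : Z.length = l) (hZg : Good Z) :
    trc A (List.replicate l (1 : Ω → ℝ) ++ Z) ^ 2 ≤
      trc A (List.replicate (2 * l) (1 : Ω → ℝ)) * M := by
  have h1 := trace_mul_sq_le (prd A (List.replicate l (1 : Ω → ℝ))) (prd A Z)
  have h2 := tr_second_le A hA l hl M hbd Z hZ hZg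
  have h3 : (prd A (List.replicate l (1 : Ω → ℝ)) * (prd A (List.replicate l (1 : Ω → ℝ)))ᵀ).trace
      = trc A (List.replicate (2 * l) (1 : Ω → ℝ)) := by
    obtain ⟨l', rfl⟩ : ∃ l', l = l' + 1 := ⟨l - 1, by omega⟩
    rw [List.replicate_succ, ← trc_mirror A hA, replicate_mirror]
  rw [h3] at h1
  have h4 : trc A (List.replicate l (1 : Ω → ℝ) ++ Z) =
      (prd A (List.replicate l (1 : Ω → ℝ)) * prd A Z).trace := by
    simp [trc, prd_append]
  rw [h4]
  refine h1.trans ?_
  apply mul_le_mul_of_nonneg_left h2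
  rw [← h3]
  exact trace_self_nonneg _

/-- Doubling step. -/
lemma step_double (r : ℕ) (hr : r < l) (L : List (Ω → ℝ)) (hL : Cls (2 * l) r L) :
    ∃ L₂, Cls (2 * l) (2 * r + 1) L₂ ∧ trc A L ^ 2 ≤ |trc A L₂| * M := by
  obtain ⟨hlen, hg, L', rfl⟩ := hL
  have hlen' : L'.length = 2 * l - r := by
    simp at hlen; omega
  -- split `L' = Z ++ Y₀`
  set Z := L'.take l with hZdef
  set Y₀ := L'.drop l with hY₀def
  have hL' : L' = Z ++ Y₀ := (List.take_append_drop l L').symm
  have hZlen : Z.length = l := by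
    simp [hZdef, hlen']; omega
  have hY₀len : Y₀.length = l - r := by
    simp [hY₀def, hlen']; omega
  cases hY : Y₀ with
  | nil =>
    rw [hY] at hY₀len
    simp at hY₀len; omega
  | cons d Y' =>
    have hgZ : Good Z := fun D hD => hg D (by rw [hL']; simp [hD])
    have hgY₀ : Good Y₀ := fun D hD => hg D (by rw [hL']; simp [hD])
    have hd : ∀ a, |d a| ≤ 1 := hgY₀ d (by rw [hY]; simp)
    have hgY' : Good Y' := fun D hD => hgY₀ D (by rw [hY]; simp [hD])
    have hY'len : Y'.length = l - r - 1 := by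
      rw [hY] at hY₀len; simp at hY₀len; omega
    -- the new list
    refine ⟨List.replicate (2 * r + 1) (1 : Ω → ℝ) ++ (Y'.reverse ++ (d * d) :: Y'), ?_, ?_⟩
    · refine ⟨?_, ?_, _, rfl⟩
      · simp; omega
      · intro D hD
        simp only [List.mem_append, List.mem_cons, List.mem_reverse] at hD
        rcases hD with hD | hD | rfl | hD
        · exact good_one _ D hD
        · exact hgY' D hD
        · exact Good.mul_self hd
        · exact hgY' D hD
    · -- rotate
      have e0 : trc A (List.replicate r (1 : Ω → ℝ) ++ L') =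
          trc A ((Y₀ ++ List.replicate r (1 : Ω → ℝ)) ++ Z) := by
        rw [hL', ← List.append_assoc, trc_rot, List.append_assoc]
      have e1 : trc A ((Y₀ ++ List.replicate r (1 : Ω → ℝ)) ++ Z) =
          (prd A (Y₀ ++ List.replicate r (1 : Ω → ℝ)) * prd A Z).trace := by
        simp [trc, prd_append, Matrix.mul_assoc]
      have h1 := trace_mul_sq_le (prd A (Y₀ ++ List.replicate r (1 : Ω → ℝ))) (prd A Z)
      have h2 := tr_second_le A hA l hl M hbd Z hZlen hgZ
      have h3 : (prd A (Y₀ ++ List.replicate r (1 : Ω → ℝ)) *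
          (prd A (Y₀ ++ List.replicate r (1 : Ω → ℝ)))ᵀ).trace =
          trc A (List.replicate (2 * r + 1) (1 : Ω → ℝ) ++ (Y'.reverse ++ (d * d) :: Y')) := by
        rw [hY, List.cons_append, ← trc_mirror A hA]
        have e2 : (d * d) :: (Y' ++ List.replicate r (1 : Ω → ℝ) ++
            (1 : Ω → ℝ) :: (Y' ++ List.replicate r (1 : Ω → ℝ)).reverse) =
            ((d * d) :: Y') ++ (List.replicate r (1 : Ω → ℝ) ++ (1 : Ω → ℝ) ::
              (List.replicate r (1 : Ω → ℝ) ++ Y'.reverse)) := by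
          simp [List.reverse_append]
        rw [e2, trc_rot]
        congr 1
        have e3 : List.replicate (2 * r + 1) (1 : Ω → ℝ) =
            List.replicate r (1 : Ω → ℝ) ++ (1 : Ω → ℝ) :: List.replicate r (1 : Ω → ℝ) := by
          symm
          rw [List.eq_replicate_iff]
          constructor
          · simp; omega
          · intro b hb
            simp only [List.mem_cons, List.mem_append] at hb
            rcases hb with hb | rfl | hb
            · exact List.eq_of_mem_replicate hb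
            · rfl
            · exact List.eq_of_mem_replicate hb
        rw [e3]
        simp
      rw [e0, e1]
      rw [h3] at h1
      refine h1.trans ?_
      have h4 : 0 ≤ trc A (List.replicate (2 * r + 1) (1 : Ω → ℝ) ++ (Y'.reverse ++ (d * d) :: Y')) := by
        rw [← h3]; exact trace_self_nonneg _
      rw [abs_of_nonneg h4]
      exact mul_le_mul_of_nonneg_left h2 h4

end chain

section main

variable (A : Matrix Ω Ω ℝ) (hA : Aᵀ = A) (l : ℕ) (hl : 0 < l) (M : ℝ) (hM : 0 ≤ M)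
  (hbd : ∀ L : List (Ω → ℝ), L.length = 2 * l → Good L → |trc A L| ≤ M)

include hA hl hbd hM

lemma chain_bound (k : ℕ) : ∀ r L, l + 1 ≤ (r + 1) * 2 ^ k → Cls (2 * l) r L →
    |trc A L| ^ (2 ^ (k + 1)) * M ≤ M ^ (2 ^ (k + 1)) * trc A (List.replicate (2 * l) (1 : Ω → ℝ)) := by
  set B := trc A (List.replicate (2 * l) (1 : Ω → ℝ)) with hB
  have hB0 : 0 ≤ B := by
    obtain ⟨l', rfl⟩ : ∃ l', l = l' + 1 := ⟨l - 1, by omega⟩
    have : B = (prd A (List.replicate (l' + 1) (1 : Ω → ℝ)) *
        (prd A (List.replicate (l' + 1) (1 : Ω → ℝ)))ᵀ).trace := by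
      rw [List.replicate_succ, ← trc_mirror A hA, hB, replicate_mirror]
    rw [this]
    exact trace_self_nonneg _
  induction k with
  | zero =>
    intro r L hr hL
    simp only [pow_zero, mul_one] at hr
    have hr' : l ≤ r := by omega
    obtain ⟨hlen, hg, L', rfl⟩ := hL
    -- rewrite as prefix of exactly `l` ones
    have e : List.replicate r (1 : Ω → ℝ) ++ L' =
        List.replicate l (1 : Ω → ℝ) ++ (List.replicate (r - l) (1 : Ω → ℝ) ++ L') := by
      rw [← List.append_assoc, List.replicate_append_replicate]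
      congr 2; omega
    rw [e] at hlen hg ⊢
    have hZ : (List.replicate (r - l) (1 : Ω → ℝ) ++ L').length = l := by
      simp at hlen ⊢; omega
    have hgZ : Good (List.replicate (r - l) (1 : Ω → ℝ) ++ L') :=
      fun D hD => hg D (List.mem_append_right _ hD)
    have h := step_top A hA l hl M hbd _ hZ hgZ
    have e2 : (2 : ℕ) ^ (0 + 1) = 2 := by norm_num
    rw [e2, sq_abs]
    calc trc A _ ^ 2 * M ≤ (B * M) * M := mul_le_mul_of_nonneg_right h hM
      _ = M ^ 2 * B := by ring
  | succ k ih =>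
    intro r L hr hL
    have hr' : min r (l - 1) < l := by
      have : min r (l - 1) ≤ l - 1 := min_le_right _ _
      omega
    obtain ⟨L₂, hL₂, hT⟩ := step_double A hA l hl M hbd (min r (l - 1)) hr' L (hL.mono (min_le_left _ _))
    have hcond : l + 1 ≤ (2 * min r (l - 1) + 1 + 1) * 2 ^ k := by
      by_cases h : r < l
      · have e : min r (l - 1) = r := min_eq_left (by omega)
        rw [e]
        calc l + 1 ≤ (r + 1) * 2 ^ (k + 1) := hr
          _ = (2 * r + 1 + 1) * 2 ^ k := by ring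
      · have e : min r (l - 1) = l - 1 := min_eq_right (by omega)
        rw [e]
        have h2 : 1 ≤ 2 ^ k := Nat.one_le_two_pow
        have h3 : 2 * (l - 1) + 1 + 1 = 2 * l := by omega
        rw [h3]
        calc l + 1 ≤ 2 * l * 1 := by omega
          _ ≤ 2 * l * 2 ^ k := Nat.mul_le_mul_left _ h2
    have hih := ih _ L₂ hcond hL₂
    set q := 2 ^ (k + 1) with hq
    have e3 : 2 ^ (k + 1 + 1) = 2 * q := by rw [hq]; ring
    rw [e3]
    set T₂ := |trc A L₂|
    have hT₂ : 0 ≤ T₂ := abs_nonneg _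
    have h5 : |trc A L| ^ (2 * q) ≤ (T₂ * M) ^ q := by
      rw [pow_mul, sq_abs]
      exact pow_le_pow_left₀ (sq_nonneg _) hT q
    calc |trc A L| ^ (2 * q) * M ≤ (T₂ * M) ^ q * M := mul_le_mul_of_nonneg_right h5 hM
      _ = M ^ q * (T₂ ^ q * M) := by rw [mul_pow]; ring
      _ ≤ M ^ q * (M ^ q * B) := mul_le_mul_of_nonneg_left hih (pow_nonneg hM _)
      _ = M ^ (2 * q) * B := by rw [two_mul, pow_add]; ring

end main

theorem twist (A : Matrix Ω Ω ℝ) (hA : Aᵀ = A) (l : ℕ) (hl : 0 < l) (L : List (Ω → ℝ))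
    (hlen : L.length = 2 * l) (hL : Good L) :
    |trc A L| ≤ trc A (List.replicate (2 * l) (1 : Ω → ℝ)) := by
  classical
  set B := trc A (List.replicate (2 * l) (1 : Ω → ℝ)) with hB
  -- the supremum
  set S : Set ℝ := {y | ∃ L : List (Ω → ℝ), L.length = 2 * l ∧ Good L ∧ y = |trc A L|} with hS
  have hbdd : BddAbove S := by
    refine ⟨(Fintype.card Ω : ℝ) * (1 + ∑ p : Ω × Ω, |A p.1 p.2|) ^ (2 * l), ?_⟩
    rintro y ⟨L, h1, h2, rfl⟩
    have := trc_abs_le A L h2
    rwa [h1] at this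
  have hne : S.Nonempty := ⟨_, List.replicate (2 * l) 1, by simp, good_one _, rfl⟩
  set M := sSup S with hM
  have hbd : ∀ L : List (Ω → ℝ), L.length = 2 * l → Good L → |trc A L| ≤ M := by
    intro L h1 h2
    exact le_csSup hbdd ⟨L, h1, h2, rfl⟩
  have hM0 : 0 ≤ M := (abs_nonneg _).trans (hbd _ hlen hL)
  -- pick `k` large
  obtain ⟨k, hk⟩ : ∃ k, l + 1 ≤ 1 * 2 ^ k := by
    refine ⟨l + 1, ?_⟩
    have := Nat.lt_two_pow_self (n := l + 1)
    omega
  have hchain : ∀ L : List (Ω → ℝ), L.length = 2 * l → Good L →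
      |trc A L| ^ (2 ^ (k + 1)) * M ≤ M ^ (2 ^ (k + 1)) * B := by
    intro L h1 h2
    refine chain_bound A hA l hl M hM0 hbd k 0 L hk ⟨h1, h2, L, ?_⟩
    simp
  have hB0 : 0 ≤ B := by
    have : |trc A (List.replicate (2 * l) (1 : Ω → ℝ))| ^ (2 ^ (k + 1)) * M ≤ M ^ (2 ^ (k + 1)) * B :=
      hchain _ (by simp) (good_one _)
    obtain ⟨l', rfl⟩ : ∃ l', l = l' + 1 := ⟨l - 1, by omega⟩
    have e : B = (prd A (List.replicate (l' + 1) (1 : Ω → ℝ)) *
        (prd A (List.replicate (l' + 1) (1 : Ω → ℝ)))ᵀ).trace := by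
      rw [List.replicate_succ, ← trc_mirror A hA, hB, replicate_mirror]
    rw [e]
    exact trace_self_nonneg _
  -- conclude
  have hMB : M ≤ B := by
    by_contra hcon
    have hcon := not_le.mp hcon
    have hMpos : 0 < M := lt_of_le_of_lt hB0 hcon
    set q := 2 ^ (k + 1) with hq
    have hq0 : q ≠ 0 := by positivity
    -- a root
    set c := M ^ q * B / M with hc
    have hc0 : 0 ≤ c := by positivity
    have hU : ∃ U : ℝ, 0 ≤ U ∧ U ^ q = c :=
      ⟨c ^ ((q : ℝ)⁻¹), by positivity, Real.rpow_inv_natCast_pow hc0 hq0⟩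
    obtain ⟨U, hU0, hUq⟩ := hU
    have hle : M ≤ U := by
      apply csSup_le hne
      rintro y ⟨L, h1, h2, rfl⟩
      have h3 := hchain L h1 h2
      have h4 : |trc A L| ^ q ≤ U ^ q := by
        rw [hUq, hc, le_div_iff₀ hMpos]
        exact h3
      exact (pow_le_pow_iff_left₀ (abs_nonneg _) hU0 hq0).1 h4
    have h6 : M ^ q ≤ c := by
      rw [← hUq]
      exact pow_le_pow_left₀ hM0 hle q
    rw [hc, le_div_iff₀ hMpos] at h6
    have h7 : M ^ q * M ≤ M ^ q * B := h6
    have h8 : M ≤ B := le_of_mul_le_mul_left h7 (by positivity)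
    linarith
  exact (hbd L hlen hL).trans hMB

end Vale.Agent.Lib.P050
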